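-- KEEP
import Claimed.Agent.R252.S7b.HorGrp

/-!
# Row 252 (Kakeya in R^4), Sec. 8 (08-critical-rates.tex): CONTEXT STRUCTURES AND HUB LANGUAGE      (chief of S8: helper182; prefix `k8` / `K8`)

DEFINITIONS ONLY, no sorry.   Everything is over the one-scale horizontal record `H : K7bHor`, `c : K7bPar` of helper95 (`S7b/HorDefs.lean`, `S7b/HorGrp.lean`).
Sub-architects: helper54 (`S8c`, l.74-330, P8.2), post S8p (l.331-550: D8.3, L8.4, first third of P8.5), helper98 (`S8b`, l.551-1100: rest of P8.5, P8.6).   L8.1 = `ks_floors` (State/KsState.lean, proved).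

## The language
* `K8Exp`  fixed exponents `k = ℓ, d, S, e₀` and the preparation range `R` (all requirement lists `G0 ⊆ [0, R]`; objection of helper95, 20:20Z).    `K8Adm x M G0 N1 c` : the parameter record `c` has these exponents, scale `≥ N1`, prepared depths `⊇ G0`, finest meshes `ξ, χ, ϱ` = dyadic roundings of `N^(-M)`.
* `K8Inp H c K E` : a DENSE INPUT with slack `K` : `H.Ok c K`, `#c.G ≤ K`, gaps of the depth grid `c.G` at most `log_N K`, `E ⊆ Sp` measurable of mass `≥ 1/K`.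
* `K8HubAt x M0 Hyp Concl` : THE SHAPE OF EVERY STATEMENT OF SEC. 8 ("on a further dense restriction, with subpower losses"):
      `∀ meshes M ≥ M0, ∀ τ > 0, ∃ G0 ⊆ [0, R], τ', N1, ∀ H (a : auxiliary data) c K E, Adm → Inp → K ≤ N^τ' → Hyp H a c K E → Concl H a c (N^τ) E`.
  ORDER OF CONSTANTS: the mesh exponents are FIXED POWERS chosen before the tolerance `τ` (08 l.715-740 "a fixed reconstruction buffer"); the depth grid `G0` may depend on `τ` ("slow grids").   This order composes (`k8_hub_trans` in `S8/Glue.lean`).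
* `K8Cand` : THE EXIT of Sec. 8: a time-improvement candidate in horizontal units (true `Q_s`, polynomial base predictor of degree `≤ 2`, width `K a_{s+g}` on the WHOLE block of every counted trajectory, counted residual mass `≥ m_Q N^(-d g) / K`).
  Restoring `w = L + a_r x` and the factor `q_r ν(Q_r)` (07 l.1408-1412, 08 l.318-328, l.1075-1095) is done by the producer of `H` (S7b).
* `K8Pr`, `K8Lab`, `K8Lab.Ok` : full-time labels and predictors = the DATA of property `𝒢(u)` (D8.3 `a07:bootstrap-property`) at one scale.   A labelling is a pair (labelled trajectories `dom`, predictor `pr l` of a trajectory);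
  THE LABEL OF `l` IS THE PAIR (group of `l`, predictor of `l`), so the assignments are disjoint by construction (two labels of the paper with the same group and the same predictor are merged: floors only grow).
* `K8Lab.Cmp` : conclusions (i), (ii) of L8.4 `a07:full-time-comparison`;  (iii) = `H.Pairs`, `H.PairFit` of S7b (`k7b_nested_slopes`), collected in `K8Prep`.
* `K8G x smax M0 u` : property `𝒢(u)`.    `K8Exit x` : the exit statement.
-/

set_option autoImplicit false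

namespace Claimed.Agent.R252

open MeasureTheory
open scoped ENNReal BigOperators

noncomputable section

/-! ## 1. Exponents, admissible parameters, dense inputs, hubs -/

/-- the fixed exponents of the horizontal problem -/
structure K8Exp where
  /-- the rate `k = ℓ` -/
  k : ℝ
  /-- the dimension -/
  d : ℝ
  /-- the palette exponent -/
  S : ℝ
  /-- the accuracy of the horizontal equation -/
  e0 : ℝ
  /-- the preparation range: the producer (S7b, 07 l.930; 08 l.107) prepares relative depths in `[0, R]` only, so every requirement list `G0` of a hub lies in `[0, R]` -/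
  R : ℝ

/-- their ranges -/
structure K8Exp.Ok (x : K8Exp) : Prop where
  k0 : 0 < x.k
  k1 : x.k ≤ 1
  d0 : 0 ≤ x.d
  d1 : x.d < 1
  S0 : 0 < x.S
  e0 : 0 < x.e0
  R0 : 0 < x.R

/-- the parameter record `c` has the exponents `x`, the finest meshes `N^(-M)`, the prepared depths `⊇ G0`, the scale `≥ N1` -/
structure K8Adm (x : K8Exp) (M : ℝ × ℝ × ℝ) (G0 : Finset ℝ) (N1 : ℝ) (c : K7bPar) : Prop where
  wf : c.WF
  hk : c.k = x.k
  hd : c.d = x.d
  hS : c.S = x.S
  he : c.e0 = x.e0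
  hN : N1 ≤ c.N
  hG : G0 ⊆ c.G
  /-- the finest meshes are the fixed powers `N^(-M)` up to dyadic rounding (`Base/Pb.kbDy` rounds upwards) -/
  hξ : c.N ^ (-M.1) ≤ c.ξ ∧ c.ξ < 2 * c.N ^ (-M.1)
  hχ : c.N ^ (-M.2.1) ≤ c.χ ∧ c.χ < 2 * c.N ^ (-M.2.1)
  hϱ : c.N ^ (-M.2.2) ≤ c.ϱ ∧ c.ϱ < 2 * c.N ^ (-M.2.2)
  /-- they are dyadic, so `k7bBin c.χ = kbBin c.χ` etc. -/
  dy : ∃ m : ℤ × ℤ × ℤ, c.ξ = (2 : ℝ) ^ m.1 ∧ c.χ = (2 : ℝ) ^ m.2.1 ∧ c.ϱ = (2 : ℝ) ^ m.2.2

/-- a dense input with slack `K` -/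
structure K8Inp (H : K7bHor) (c : K7bPar) (K : ℝ) (E : Set (H.Lam × ℝ)) : Prop where
  K1 : 1 ≤ K
  ok : H.Ok c K
  card : (c.G.card : ℝ) ≤ K
  /-- the prepared depths form a grid with subpower gaps ("slow grids") -/
  grid : ∀ s ∈ c.G, 0 < s → ∃ s' ∈ c.G, s' < s ∧ c.N ^ (s - s') ≤ K
  res : H.Res E (1 / K)

/-- **the shape of every statement of Sec. 8**, mesh threshold `M0` exposed.   `A H` = auxiliary data shared by the hypothesis and the conclusion (stored selections, labellings) -/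
def K8HubAt (x : K8Exp) (M0 : ℝ) {A : K7bHor → Type}
    (Hyp Concl : ∀ H : K7bHor, A H → K7bPar → ℝ → Set (H.Lam × ℝ) → Prop) : Prop :=
  ∀ M : ℝ × ℝ × ℝ, M0 ≤ M.1 → M0 ≤ M.2.1 → M0 ≤ M.2.2 → ∀ τ : ℝ, 0 < τ →
    ∃ (G0 : Finset ℝ) (τ' N1 : ℝ), 0 < τ' ∧ (∀ s ∈ G0, 0 ≤ s ∧ s ≤ x.R) ∧
      ∀ (H : K7bHor) (a : A H) (c : K7bPar) (K : ℝ) (E : Set (H.Lam × ℝ)),
        K8Adm x M G0 N1 c → K8Inp H c K E → K ≤ c.N ^ τ' → Hyp H a c K E → Concl H a c (c.N ^ τ) E

/-- no auxiliary data, no extra hypothesis -/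
def K8Hub0 (x : K8Exp) (M0 : ℝ) (Concl : ∀ H : K7bHor, K7bPar → ℝ → Set (H.Lam × ℝ) → Prop) : Prop :=
  K8HubAt x M0 (A := fun _ => Unit) (fun _ _ _ _ _ => True) (fun H _ c K E => Concl H c K E)

/-! ## 2. The exit -/

/-- evaluation of a polynomial in the base `(t, Z, Y)` -/
def k8Ev (P : MvPolynomial (Fin 3) ℝ) (u : ℝ × ℝ × ℝ) : ℝ := MvPolynomial.eval ![u.1, u.2.1, u.2.2] P

/-- **time-improvement candidate in horizontal units**: depth `s`, gain `g`, slack `K`, residual `E`, true label `q`, base predictor `P`, counted incidences `Cn` -/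
structure K8Cand (H : K7bHor) (c : K7bPar) (K s g : ℝ) (E : Set (H.Lam × ℝ)) (q : H.Q) (P : MvPolynomial (Fin 3) ℝ)
    (Cn : Set (H.Lam × ℝ)) : Prop where
  s_mem : s ∈ c.G
  q_mem : q ∈ H.Qat s
  deg : P.totalDegree ≤ 2
  meas : MeasurableSet Cn
  sub : Cn ⊆ E
  lab : ∀ z ∈ Cn, H.lab s z = q
  /-- the fit holds throughout the block on every counted trajectory -/
  fit : ∀ z ∈ Cn, ∀ t ∈ H.blk q, |H.Xt z.1 t - k8Ev P (H.bs z.1 t)| ≤ K * c.a (s + g)
  /-- counted mass `≥ m_Q N^(-d g) / K` -/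
  mass : H.mQ q * ENNReal.ofReal (c.N ^ (-(c.d * g))) ≤ ENNReal.ofReal K * H.lam Cn

/-- **the exit statement of Sec. 8** (P8.2 + P8.6): every dense residual of a prepared horizontal problem yields a candidate at a fixed depth with a fixed gain -/
def K8Exit (x : K8Exp) : Prop :=
  ∃ s g M0 : ℝ, 0 < s ∧ 0 < g ∧ K8Hub0 x M0 fun H c K E => ∃ q P Cn, K8Cand H c K s g E q P Cn

/-! ## 3. Full-time labels (D8.3) -/

/-- a full-time predictor `H(t, P)`: affine in `P = (p, q₀)`, coefficients affine in time -/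
structure K8Pr where
  c0 : ℝ
  c1 : ℝ
  p0 : ℝ
  p1 : ℝ
  q0 : ℝ
  q1 : ℝ

/-- its value -/
def K8Pr.ev (h : K8Pr) (t p q : ℝ) : ℝ := (h.c0 + h.c1 * t) + (h.p0 + h.p1 * t) * p + (h.q0 + h.q1 * t) * q

/-- the calligraphic form of an affine entry: `𝓛(t, P) = L(t, p + t v, q₀ - t p)` -/
def k8Cal (L : ℝ × ℝ × ℝ × ℝ) (v t p q : ℝ) : ℝ := k7bAff L (t, p + t * v, q - t * p)

/-- a full-time labelling: labelled trajectories and their predictors -/
structure K8Lab (H : K7bHor) where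
  dom : Set H.Lam
  pr : H.Lam → K8Pr

namespace K8Lab

variable {H : K7bHor} (F : K8Lab H)

/-- the trajectory assignment of the label of `l₀` : same group `(d₀, P_D)`, same predictor -/
def asg (χ D : ℝ) (l₀ : H.Lam) : Set H.Lam := {l | l ∈ F.dom ∧ H.grp χ D l = H.grp χ D l₀ ∧ F.pr l = F.pr l₀}

/-- its incidences -/
def inc (χ D : ℝ) (l₀ : H.Lam) : Set (H.Lam × ℝ) := {z | z.1 ∈ F.asg χ D l₀}

/-- **the data of `𝒢(u)` at one scale**: depth `s`, parameter width `D`, slack `K`, current selection `E` -/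
structure Ok (c : K7bPar) (K s D : ℝ) (E : Set (H.Lam × ℝ)) : Prop where
  mdom : MeasurableSet F.dom
  mpr : ∀ h, MeasurableSet (F.pr ⁻¹' {h})
  fin : (F.pr '' F.dom).Finite
  /-- every retained incidence is labelled -/
  cover : ∀ z ∈ E, z.1 ∈ F.dom
  /-- the prediction holds throughout unit time on the assigned trajectories -/
  fit : ∀ l ∈ F.dom, ∀ t ∈ Set.Icc (0 : ℝ) 1, |H.Xt l t - (F.pr l).ev t (H.p l) (H.q0 l)| ≤ K * c.a s
  /-- the predictor is bounded on the scaled parameter box over unit time -/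
  norm : ∀ l ∈ F.dom, ∀ t ∈ Set.Icc (0 : ℝ) 1, ∀ p q : ℝ, |p - H.p l| ≤ D → |q - H.q0 l| ≤ D → |(F.pr l).ev t p q| ≤ K
  /-- individual active mass `≥ π(d₀) D² a_s^d / K` -/
  floor : ∀ z ∈ E, H.gW c.χ D (H.grp c.χ D z.1) * ENNReal.ofReal (c.a s ^ c.d) ≤ ENNReal.ofReal K * H.lam (E ∩ F.inc c.χ D z.1)
  /-- current chart mass `≥ ν^♭(label) / K`   (08 l.795-805) -/
  prior : ∀ z ∈ E, H.ν (F.asg c.χ D z.1) ≤ ENNReal.ofReal K * H.lam (E ∩ F.inc c.χ D z.1)

/-- **L8.4 (i), (ii)**: comparison of the full-time predictors with the true affine entries of depth `s` -/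
structure Cmp (c : K7bPar) (K s D : ℝ) (E : Set (H.Lam × ℝ)) : Prop where
  /-- `‖𝓛_s - H₀‖ ≤ K a_s` on the whole product of the block and the parameter box -/
  close : ∀ z ∈ E, ∀ t ∈ H.blk (H.lab s z), ∀ p q : ℝ, |p - H.p z.1| ≤ D → |q - H.q0 z.1| ≤ D →
    |k8Cal (H.entOf s z) ((H.grp c.χ D z.1).1 * c.χ) t p q - (F.pr z.1).ev t p q| ≤ K * c.a s
  /-- given the label and the block, at most `K` true-label entries occur -/
  list : ∀ (l₀ : H.Lam) (I : Set ℝ), ∃ L : Finset (H.Q × (ℝ × ℝ × ℝ × ℝ)), (L.card : ℝ) ≤ K ∧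
    ∀ z ∈ E, z.1 ∈ F.asg c.χ D l₀ → H.blk (H.lab s z) = I → (H.lab s z, H.entOf s z) ∈ L

end K8Lab

/-- the affine preparations of S7b (`k7b_nested_slopes`): stored selection `E₀ ⊇ E` with the full-domain pair witnesses, pair fits, zero fits, slopes -/
structure K8Prep (H : K7bHor) (c : K7bPar) (K : ℝ) (E₀ E : Set (H.Lam × ℝ)) : Prop where
  sub : E ⊆ E₀
  sub0 : E₀ ⊆ H.Sp
  meas0 : MeasurableSet E₀
  pairs : H.Pairs c K E₀ E
  pfit : H.PairFit c K E
  zfit : H.ZeroFit c K E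
  slopes : H.Slopes c K E

/-- the conclusion of `𝒢(u)` at the depth `s` -/
def K8GC (s u : ℝ) (H : K7bHor) (c : K7bPar) (K : ℝ) (E : Set (H.Lam × ℝ)) : Prop :=
  ∃ E' ⊆ E, H.Res E' (1 / K) ∧ ∃ F : K8Lab H, F.Ok c K s (c.a s ^ u) E'

/-- **property `𝒢(u)`** (D8.3), finite-scale form; the mesh threshold `M0` is the same for all `u` and `s`   (08 l.715-740) -/
def K8G (x : K8Exp) (smax M0 u : ℝ) : Prop := ∀ s : ℝ, 0 < s → s < smax → K8Hub0 x M0 (K8GC s u)

/-- the recurrence of the bootstrap `u ↦ u / (1 + α (u - 2k))`;  one step at the depth `s₀` has the gain `θ = α (u - 2k)` : `s₁ = (1 + θ) s₀`.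
In the paper `α = (1 - d) / 10⁴`; here `α = α(d) > 0` is whatever the first-jet reading exponent of S5 allows (`k5_first_jet`: `α = θ_FIT (1 - d) / 1000`) -/
def k8Next (k α u : ℝ) : ℝ := u / (1 + α * (u - 2 * k))

/-- the exponents `u_j`, `u_0 = 1` -/
def k8U (k α : ℝ) : ℕ → ℝ
  | 0 => 1
  | j + 1 => k8Next k α (k8U k α j)

theorem k8_defs_eqns_cite : True := by
  have := @K8HubAt.eq_1
  have := @K8Hub0.eq_1
  have := @k8Ev.eq_1
  have := @K8Exit.eq_1
  have := @K8Pr.ev.eq_1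
  have := @k8Cal.eq_1
  have := @K8Lab.asg.eq_1
  have := @K8Lab.inc.eq_1
  have := @K8GC.eq_1
  have := @K8G.eq_1
  have := @k8Next.eq_1
  have := @k8U.eq_1
  have := @k8U.eq_2
  trivial

end

end Claimed.Agent.R252
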