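-- KEEP
import Claimed.Agent.R252.S8.Defs

/-!
# Row 252, Sec. 8: THE CALCULUS OF HUBS      (helper182; prefix `k8`)      no sorry

* `k8_ok_mono`     `H.Ok c K` is monotone in the slack
* `K8Adm.mono`, `k8_inp_up`, `K8HubAt.mono`
* `k8_hub_trans`   composition of two hubs ("on a further dense restriction");  `k8_hub_frame` frame rule;  `K8HubAt.imp` change of auxiliary data / weakening
* `k8_U_*`         the recurrence `u_{j+1} = u_j / (1 + α (u_j - 2k))` (08 l.745-760): `2k < u_j ≤ 1`, `u_j - 2k ≤ (1 - 2kα)^j`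
-/

set_option autoImplicit false

namespace Claimed.Agent.R252

open MeasureTheory
open scoped ENNReal BigOperators

theorem k8_box_mono {tc Zc Yc h ρ ρ' : ℝ} (hh : 0 ≤ h) (hρ : ρ ≤ ρ') : k7bBox tc Zc Yc h ρ ⊆ k7bBox tc Zc Yc h ρ' := by
  rintro u ⟨a, b, c⟩
  exact ⟨a.trans (mul_le_mul_of_nonneg_right hρ hh), b.trans (mul_le_mul_of_nonneg_right hρ hh),
    c.trans (mul_le_mul_of_nonneg_right hρ (by positivity))⟩

/-- the standing hypotheses are monotone in the slack -/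
theorem k8_ok_mono {H : K7bHor} {c : K7bPar} {K K' : ℝ} (hc : c.WF) (hK0 : 0 < K) (hK : K ≤ K') (h : H.Ok c K) : H.Ok c K' := by
  have hN : 0 < c.N := lt_of_lt_of_le one_pos hc.N1
  have ha : ∀ s, 0 < c.a s := fun s => Real.rpow_pos_of_pos hN _
  have hh : ∀ s, 0 < c.h s := fun s => Real.rpow_pos_of_pos hN _
  have hoK : ENNReal.ofReal K ≤ ENNReal.ofReal K' := ENNReal.ofReal_le_ofReal hK
  have hK'0 : 0 < K' := hK0.trans_le hK
  exact
  { mp := h.mp, mv := h.mv, mq0 := h.mq0, my1 := h.my1, mx0 := h.mx0, mx1 := h.mx1, mSp := h.mSp, meh := h.meh, mlab := h.mlab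
    ment := h.ment, masg := h.masg, νle := h.νle, νprob := h.νprob, palle := h.palle, lamres := h.lamres, dyad := h.dyad, anc := h.anc
    refQ := fun s hs q hq F hF => (h.refQ s hs q hq F hF).trans (mul_le_mul' hoK le_rfl)
    dom := h.dom.trans (Measure.le_iff.2 fun s _ => by
      simp only [Measure.smul_apply, smul_eq_mul]
      exact mul_le_mul' hoK le_rfl)
    time := h.time
    bdd := fun z hz => ⟨(h.bdd z hz).1.trans hK, (h.bdd z hz).2.1.trans hK, (h.bdd z hz).2.2.1.trans hK, (h.bdd z hz).2.2.2.trans hK⟩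
    bddx := fun z hz => ⟨(h.bddx z hz).1.trans hK, (h.bddx z hz).2.trans hK⟩
    heq := h.heq
    palcap := fun x r h1 h2 => (h.palcap x r h1 h2).trans (ENNReal.ofReal_le_ofReal
      (mul_le_mul_of_nonneg_right hK (Real.rpow_nonneg (hc.χ0.le.trans h1) _)))
    ehdom := ks_dom_mono h.ehdom le_rfl (fun _ _ => le_rfl) (fun _ => le_rfl) hoK
    refsum := h.refsum.trans hoK
    capJ := fun C x r b h1 h2 => (h.capJ C x r b h1 h2).trans (mul_le_mul' (ENNReal.ofReal_le_ofReal (by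
      have h3 : 0 ≤ r ^ c.d := Real.rpow_nonneg (hc.ϱ0.le.trans h1) _
      have h4 : 0 ≤ c.ξ ^ 3 := pow_nonneg hc.ξ0.le 3
      exact mul_le_mul_of_nonneg_right (mul_le_mul_of_nonneg_right hK h4) h3)) le_rfl)
    capP := fun C f r h1 h2 h3 h4 => (h.capP C f r h1 h2 h3 h4).trans (mul_le_mul' (ENNReal.ofReal_le_ofReal
      (mul_le_mul_of_nonneg_right hK (Real.rpow_nonneg (hc.ϱ0.le.trans h3) _))) le_rfl)
    capQ := fun s hs q hq C hC => (h.capQ s hs q hq C hC).trans (mul_le_mul' (ENNReal.ofReal_le_ofReal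
      (mul_le_mul_of_nonneg_right hK (Real.rpow_nonneg (ha s).le _))) le_rfl)
    ehlab := h.ehlab
    ehpt := fun e => by
      obtain ⟨L, h1, h2⟩ := h.ehpt e
      exact ⟨L, h1.trans hK, h2⟩
    labmem := h.labmem
    bllen := fun s hs q hq => ⟨(div_le_div_of_nonneg_left (hh s).le hK0 hK).trans (h.bllen s hs q hq).1,
      (h.bllen s hs q hq).2.trans (mul_le_mul_of_nonneg_right hK (hh s).le)⟩
    blkdisj := h.blkdisj
    asgdisj := h.asgdisj
    νQ := fun s hs q hq => by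
      have h3 : 0 ≤ c.a s ^ c.d * c.h s ^ 3 := mul_nonneg (Real.rpow_nonneg (ha s).le _) (pow_nonneg (hh s).le 3)
      refine ⟨(ENNReal.ofReal_le_ofReal (div_le_div_of_nonneg_left h3 hK0 hK)).trans (h.νQ s hs q hq).1,
        (h.νQ s hs q hq).2.trans (ENNReal.ofReal_le_ofReal ?_)⟩
      rw [mul_assoc, mul_assoc]
      exact mul_le_mul_of_nonneg_right hK h3
    budget := h.budget
    box := fun s hs q hq l hl t ht => k8_box_mono (hh s).le hK (h.box s hs q hq l hl t ht)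
    nest := h.nest
    entcard := fun q => (h.entcard q).trans hK
    entmem := h.entmem
    entfit := fun s hs z hz t ht => (h.entfit s hs z hz t ht).trans (mul_le_mul_of_nonneg_right hK (ha s).le) }

theorem K8Adm.mono {x : K8Exp} {M : ℝ × ℝ × ℝ} {G0 G0' : Finset ℝ} {N1 N1' : ℝ} {c : K7bPar} (h : K8Adm x M G0 N1 c)
    (hG : G0' ⊆ G0) (hN : N1' ≤ N1) : K8Adm x M G0' N1' c :=
  { h with hN := hN.trans h.hN, hG := hG.trans h.hG }

theorem k8_res_mono {H : K7bHor} {E : Set (H.Lam × ℝ)} {m m' : ℝ} (h : H.Res E m) (hm : m' ≤ m) : H.Res E m' :=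
  ⟨h.sub, h.meas, (ENNReal.ofReal_le_ofReal hm).trans h.mass⟩

/-- a dense restriction of a dense input is a dense input with a larger slack -/
theorem k8_inp_up {H : K7bHor} {c : K7bPar} {K K' : ℝ} {E E' : Set (H.Lam × ℝ)} (hc : c.WF) (h : K8Inp H c K E) (hK : K ≤ K')
    (hE : H.Res E' (1 / K')) : K8Inp H c K' E' :=
  ⟨h.K1.trans hK, k8_ok_mono hc (lt_of_lt_of_le one_pos h.K1) hK h.ok, h.card.trans hK,
    fun s hs h0 => by
      obtain ⟨s', a, b, e⟩ := h.grid s hs h0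
      exact ⟨s', a, b, e.trans hK⟩, hE⟩

/-- a hub stays true for a larger mesh threshold -/
theorem K8HubAt.mono {x : K8Exp} {M0 M0' : ℝ} {A : K7bHor → Type}
    {Hyp Concl : ∀ H : K7bHor, A H → K7bPar → ℝ → Set (H.Lam × ℝ) → Prop} (h : K8HubAt x M0 Hyp Concl) (hM : M0 ≤ M0') :
    K8HubAt x M0' Hyp Concl := fun M h1 h2 h3 => h M (hM.trans h1) (hM.trans h2) (hM.trans h3)

/-- in a hub one may assume `τ' ≤ τ` and `N1 ≥ 1` -/
theorem K8HubAt.norm {x : K8Exp} {M0 : ℝ} {A : K7bHor → Type}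
    {Hyp Concl : ∀ H : K7bHor, A H → K7bPar → ℝ → Set (H.Lam × ℝ) → Prop} (h : K8HubAt x M0 Hyp Concl)
    (M : ℝ × ℝ × ℝ) (h1 : M0 ≤ M.1) (h2 : M0 ≤ M.2.1) (h3 : M0 ≤ M.2.2) (τ : ℝ) (hτ : 0 < τ) :
    ∃ (G0 : Finset ℝ) (τ' N1 : ℝ), 0 < τ' ∧ τ' ≤ τ ∧ (∀ s ∈ G0, 0 ≤ s ∧ s ≤ x.R) ∧
      ∀ (H : K7bHor) (a : A H) (c : K7bPar) (K : ℝ) (E : Set (H.Lam × ℝ)),
        K8Adm x M G0 N1 c → K8Inp H c K E → K ≤ c.N ^ τ' → Hyp H a c K E → Concl H a c (c.N ^ τ) E := by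
  obtain ⟨G0, τ', N1, hτ', hG, hh⟩ := h M h1 h2 h3 τ hτ
  refine ⟨G0, min τ' τ, N1, lt_min hτ' hτ, min_le_right _ _, hG, fun H a c K E hA hI hK hy => hh H a c K E hA hI ?_ hy⟩
  exact hK.trans (Real.rpow_le_rpow_of_exponent_le hA.wf.N1 (min_le_left _ _))

/-- **composition of hubs** : first hub = "on a dense restriction `E'` there are data `b` with the property `Mid`", second hub = "`Mid` implies `Concl2`" -/
theorem k8_hub_trans {x : K8Exp} {M0 : ℝ} {A B : K7bHor → Type}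
    {Hyp Concl : ∀ H : K7bHor, A H → K7bPar → ℝ → Set (H.Lam × ℝ) → Prop}
    {Mid Concl2 : ∀ H : K7bHor, B H → K7bPar → ℝ → Set (H.Lam × ℝ) → Prop}
    (h1 : K8HubAt x M0 Hyp (fun H _ c K E => ∃ E' ⊆ E, H.Res E' (1 / K) ∧ ∃ b : B H, Mid H b c K E'))
    (h2 : K8HubAt x M0 Mid Concl2)
    (hmono : ∀ (H : K7bHor) (a : A H) (b : B H) (c : K7bPar) (K : ℝ) (E E' : Set (H.Lam × ℝ)), E' ⊆ E →
      Concl2 H b c K E' → Concl H a c K E) :
    K8HubAt x M0 Hyp Concl := by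
  intro M m1 m2 m3 τ hτ
  obtain ⟨G2, τ2, N2, hτ2, hG2, H2⟩ := h2 M m1 m2 m3 τ hτ
  obtain ⟨G1, τ1, N1, hτ1, hle, hG1, H1⟩ := h1.norm M m1 m2 m3 τ2 hτ2
  classical
  refine ⟨G1 ∪ G2, τ1, max N1 N2, hτ1, fun s hs => (Finset.mem_union.1 hs).elim (hG1 s) (hG2 s), fun H a c K E hA hI hK hy => ?_⟩
  obtain ⟨E', hE', hR, b, hM⟩ := H1 H a c K E (hA.mono Finset.subset_union_left (le_max_left _ _)) hI hK hy
  have hK2 : K ≤ c.N ^ τ2 := hK.trans (Real.rpow_le_rpow_of_exponent_le hA.wf.N1 hle)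
  exact hmono H a b c _ E E' hE' (H2 H b c (c.N ^ τ2) E' (hA.mono Finset.subset_union_right (le_max_right _ _))
    (k8_inp_up hA.wf hI hK2 hR) le_rfl hM)

/-- **frame rule** : a property `P` which persists under restriction and under an increase of the slack may be carried through a hub -/
theorem k8_hub_frame {x : K8Exp} {M0 : ℝ} {A B : K7bHor → Type}
    {Hyp P : ∀ H : K7bHor, A H → K7bPar → ℝ → Set (H.Lam × ℝ) → Prop}
    {Mid : ∀ H : K7bHor, A H → B H → K7bPar → ℝ → Set (H.Lam × ℝ) → Prop}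
    (hP : ∀ (H : K7bHor) (a : A H) (c : K7bPar) (K K' : ℝ) (E E' : Set (H.Lam × ℝ)), c.WF → 1 ≤ K → K ≤ K' → E' ⊆ E →
      P H a c K E → P H a c K' E')
    (h : K8HubAt x M0 Hyp (fun H a c K E => ∃ E' ⊆ E, H.Res E' (1 / K) ∧ ∃ b : B H, Mid H a b c K E')) :
    K8HubAt x M0 (fun H a c K E => Hyp H a c K E ∧ P H a c K E)
      (fun H a c K E => ∃ E' ⊆ E, H.Res E' (1 / K) ∧ ∃ b : B H, Mid H a b c K E' ∧ P H a c K E') := by
  intro M m1 m2 m3 τ hτ
  obtain ⟨G1, τ1, N1, hτ1, hle, hG1, H1⟩ := h.norm M m1 m2 m3 τ hτ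
  refine ⟨G1, τ1, N1, hτ1, hG1, fun H a c K E hA hI hK hy => ?_⟩
  obtain ⟨E', hE', hR, b, hM⟩ := H1 H a c K E hA hI hK hy.1
  exact ⟨E', hE', hR, b, hM, hP H a c K _ E E' hA.wf hI.K1
    (hK.trans (Real.rpow_le_rpow_of_exponent_le hA.wf.N1 hle)) hE' hy.2⟩

/-- change of the auxiliary data, weaker hypothesis / stronger conclusion -/
theorem K8HubAt.imp {x : K8Exp} {M0 : ℝ} {A B : K7bHor → Type}
    {Hyp Concl : ∀ H : K7bHor, A H → K7bPar → ℝ → Set (H.Lam × ℝ) → Prop}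
    {Hyp' Concl' : ∀ H : K7bHor, B H → K7bPar → ℝ → Set (H.Lam × ℝ) → Prop}
    (h : K8HubAt x M0 Hyp Concl) (f : ∀ H : K7bHor, B H → A H)
    (h1 : ∀ (H : K7bHor) (b : B H) (c : K7bPar) (K : ℝ) (E : Set (H.Lam × ℝ)), Hyp' H b c K E → Hyp H (f H b) c K E)
    (h2 : ∀ (H : K7bHor) (b : B H) (c : K7bPar) (K : ℝ) (E : Set (H.Lam × ℝ)), c.WF → Concl H (f H b) c K E → Concl' H b c K E) :
    K8HubAt x M0 Hyp' Concl' := by
  intro M m1 m2 m3 τ hτ
  obtain ⟨G0, τ', N1, hτ', hG, hh⟩ := h M m1 m2 m3 τ hτ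
  exact ⟨G0, τ', N1, hτ', hG, fun H b c K E hA hI hK hy => h2 H b c _ E hA.wf (hh H (f H b) c K E hA hI hK (h1 H b c K E hy))⟩

/-- `C ≤ N^σ` for `N ≥ C^(1/σ)` -/
theorem k8_const_le {C σ N : ℝ} (hC : 1 ≤ C) (hσ : 0 < σ) (hN : C ^ (1 / σ) ≤ N) : C ≤ N ^ σ := by
  have h0 : 0 ≤ C ^ (1 / σ) := Real.rpow_nonneg (by linarith) _
  have h1 : (C ^ (1 / σ)) ^ σ ≤ N ^ σ := Real.rpow_le_rpow h0 hN hσ.le
  rwa [← Real.rpow_mul (by linarith), one_div, inv_mul_cancel₀ hσ.ne', Real.rpow_one] at h1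

theorem K8G.mono {x : K8Exp} {smax smax' M0 M0' u : ℝ} (h : K8G x smax M0 u) (hs : smax' ≤ smax) (hM : M0 ≤ M0') :
    K8G x smax' M0' u := fun s h0 h1 => K8HubAt.mono (h s h0 (h1.trans_le hs)) hM

/-! ## The recurrence -/

section rec

variable {k α : ℝ}

theorem k8_next_sub (hα : 0 < α) {u : ℝ} (hu : 2 * k < u) :
    k8Next k α u - 2 * k = (u - 2 * k) * (1 - 2 * k * α) / (1 + α * (u - 2 * k)) := by
  have hθ : 0 < α * (u - 2 * k) := mul_pos hα (by linarith)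
  unfold k8Next
  have h1 : (1 + α * (u - 2 * k)) ≠ 0 := by positivity
  field_simp
  ring

theorem k8_U_bounds (hk0 : 0 < k) (hk : 2 * k < 1) (hα : 0 < α) (hα1 : α ≤ 1) (j : ℕ) :
    2 * k < k8U k α j ∧ k8U k α j - 2 * k ≤ (1 - 2 * k * α) ^ j := by
  set r := 1 - 2 * k * α with hr
  have hr0 : 0 < r := by
    have : 2 * k * α < 1 := by nlinarith
    linarith
  induction j with
  | zero => exact ⟨by simpa [k8U] using hk, by simp [k8U]; linarith⟩
  | succ j ih =>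
    obtain ⟨h1, h2⟩ := ih
    have hpos : 0 < k8U k α j - 2 * k := by linarith
    have hθ : 0 < α * (k8U k α j - 2 * k) := mul_pos hα hpos
    have e := k8_next_sub hα h1
    rw [← hr] at e
    have e' : k8U k α (j + 1) = k8Next k α (k8U k α j) := rfl
    constructor
    · have : 0 < k8Next k α (k8U k α j) - 2 * k := by rw [e]; positivity
      rw [e']; linarith
    · rw [e', e, pow_succ]
      have h3 : (k8U k α j - 2 * k) * r / (1 + α * (k8U k α j - 2 * k)) ≤ (k8U k α j - 2 * k) * r :=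
        div_le_self (by positivity) (by linarith)
      exact h3.trans (mul_le_mul_of_nonneg_right h2 hr0.le)

theorem k8_U_le_one (hk0 : 0 < k) (hk : 2 * k < 1) (hα : 0 < α) (hα1 : α ≤ 1) (j : ℕ) : k8U k α j ≤ 1 := by
  induction j with
  | zero => simp [k8U]
  | succ j ih =>
    have h1 := (k8_U_bounds hk0 hk hα hα1 j).1
    have hθ : 0 < α * (k8U k α j - 2 * k) := mul_pos hα (by linarith)
    have h0 : 0 ≤ k8U k α j := by linarith
    show k8Next k α (k8U k α j) ≤ 1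
    unfold k8Next
    exact (div_le_self h0 (by linarith)).trans ih

/-- the exponents `u_j` tend to `2k` -/
theorem k8_U_lim (hk0 : 0 < k) (hk : 2 * k < 1) (hα : 0 < α) (hα1 : α ≤ 1) {ε : ℝ} (hε : 0 < ε) : ∃ j, k8U k α j - 2 * k < ε := by
  have hr1 : 1 - 2 * k * α < 1 := by
    have : 0 < 2 * k * α := by positivity
    linarith
  obtain ⟨j, hj⟩ := exists_pow_lt_of_lt_one hε hr1
  exact ⟨j, lt_of_le_of_lt (k8_U_bounds hk0 hk hα hα1 j).2 hj⟩

end rec

end Claimed.Agent.R252
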