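-- KEEP
import Claimed.Agent.R252.S8.Glue

/-!
# Row 252, Sec. 8: THE HUBS AS PROPS      (chief helper182; prefix `k8` / `K8H`)      definitions + monotonicity lemmas, no sorry

```
 k8_exit  ⟸  K8HCrit  (2k = 1;  P8.2;  helper54, S8c)          [uses: S7b coefficient count, re6_row_fit, ks_* calculus, k8c_triple_volume]
          ⟸  K8HWide  (2k ≠ 1;  P8.6;  helper98, S8b)          [uses: k8_boot + k8_multi + K8HCmp (2k < 1), T7.1 = thm:scalar-mesh-projection, prop:wide-interval (S7a)]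
 k8_boot  ⟸  K8HGOne (u = 1; S7b coefficient count)  +  k8_step  +  k8_end                                    [glue in `S8/Chain.lean`]
 k8_end   ⟸  k8_split (endpoint split at one scale, leaf L-252-S8-SPLIT, `S8/Split.lean`)
 k8_step  ⟸  k8_prep (S7b `k7b_nested_slopes` in hub form, leaf L-252-S8-PREP, `S8/Prep.lean`)  +  𝒢(u)  +  K8HCmp (L8.4; post S8p)  +  K8HCore (08 l.452-714; S8p + helper98)
```
A sub-architect PROVES his hub in his own folder (`theorem k8c_crit : K8HCrit`, ...), importing this file (and `S8/Chain.lean` if he needs `k8_boot`, `k8_multi`); `S8/Main.lean` will assemble.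
ORDER OF CONSTANTS.  `α` (gain of the bootstrap), `smax`, `M0` depend only on the exponents `x`; they are the same for all `u ∈ (2k, 1]` (08 l.715-740).   Then meshes `M ≥ M0`, then `τ`, then `G0, τ', N1`.
The number of bootstrap steps `j = j(τ, s)` is chosen in `k8_end` : `s (u_j - 2k) ≤ τ / 8`.   No diagonal, no sequences.
-/

set_option autoImplicit false

namespace Claimed.Agent.R252

open MeasureTheory
open scoped ENNReal BigOperators

/-! ## 0. Monotonicity of the label data -/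

theorem K8Lab.Ok.mono {H : K7bHor} {F : K8Lab H} {c : K7bPar} {K K' s D : ℝ} {E : Set (H.Lam × ℝ)} (hc : c.WF) (hK : K ≤ K')
    (h : F.Ok c K s D E) : F.Ok c K' s D E := by
  have hN : 0 < c.N := lt_of_lt_of_le one_pos hc.N1
  have ha : 0 < c.a s := Real.rpow_pos_of_pos hN _
  have hoK : ENNReal.ofReal K ≤ ENNReal.ofReal K' := ENNReal.ofReal_le_ofReal hK
  exact
  { mdom := h.mdom, mpr := h.mpr, fin := h.fin, cover := h.cover
    fit := fun l hl t ht => (h.fit l hl t ht).trans (mul_le_mul_of_nonneg_right hK ha.le)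
    norm := fun l hl t ht p q h1 h2 => (h.norm l hl t ht p q h1 h2).trans hK
    floor := fun z hz => (h.floor z hz).trans (mul_le_mul' hoK le_rfl)
    prior := fun z hz => (h.prior z hz).trans (mul_le_mul' hoK le_rfl) }

theorem K8Lab.Cmp.mono {H : K7bHor} {F : K8Lab H} {c : K7bPar} {K K' s D : ℝ} {E E' : Set (H.Lam × ℝ)} (hc : c.WF) (hK : K ≤ K')
    (hE : E' ⊆ E) (h : F.Cmp c K s D E) : F.Cmp c K' s D E' := by
  have hN : 0 < c.N := lt_of_lt_of_le one_pos hc.N1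
  have ha : 0 < c.a s := Real.rpow_pos_of_pos hN _
  refine ⟨fun z hz t ht p q h1 h2 => (h.close z (hE hz) t ht p q h1 h2).trans (mul_le_mul_of_nonneg_right hK ha.le), fun l₀ I => ?_⟩
  obtain ⟨L, h1, h2⟩ := h.list l₀ I
  exact ⟨L, h1.trans hK, fun z hz => h2 z (hE hz)⟩

theorem K8Prep.mono {H : K7bHor} {c : K7bPar} {K K' : ℝ} {E₀ E E' : Set (H.Lam × ℝ)} (hc : c.WF) (hK : K ≤ K') (hE : E' ⊆ E)
    (h : K8Prep H c K E₀ E) : K8Prep H c K' E₀ E' := by
  have hN : 0 < c.N := lt_of_lt_of_le one_pos hc.N1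
  have ha : ∀ s, 0 < c.a s := fun s => Real.rpow_pos_of_pos hN _
  have hh : ∀ s, 0 < c.h s := fun s => Real.rpow_pos_of_pos hN _
  refine ⟨hE.trans h.sub, h.sub0, h.meas0, ?_, ?_, ?_, ?_⟩
  · exact fun s' hs' s hs hss z hz => (h.pairs s' hs' s hs hss z (hE hz)).trans (mul_le_mul' (ENNReal.ofReal_le_ofReal hK) le_rfl)
  · intro s' hs' s hs hss z hz R hR u hu
    refine (h.pfit s' hs' s hs hss z (hE hz) R hR u hu).trans ?_
    have : 0 ≤ R * c.a s' := mul_nonneg (by linarith) (ha s').le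
    rw [mul_assoc, mul_assoc]
    exact mul_le_mul_of_nonneg_right hK this
  · intro s hs z hz R hR u hu
    exact (h.zfit s hs z (hE hz) R hR u hu).trans (mul_le_mul_of_nonneg_right hK (by linarith))
  · intro s hs z hz
    obtain ⟨a, b, e⟩ := h.slopes s hs z (hE hz)
    have p1 : 0 ≤ 1 + c.a s / c.h s := by have := div_pos (ha s) (hh s); linarith
    have p2 : 0 ≤ 1 + c.a s / c.h s ^ 2 := by have := div_pos (ha s) (pow_pos (hh s) 2); linarith
    exact ⟨a.trans (mul_le_mul_of_nonneg_right hK p1), b.trans (mul_le_mul_of_nonneg_right hK p1),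
      e.trans (mul_le_mul_of_nonneg_right hK p2)⟩

/-- `K8Lab.Ok` without the field `prior` (what a producer has BEFORE the last call of `ks_floors`; `k8_split_pre` with `Ds = D` restores `Ok`) -/
structure K8Lab.Pre {H : K7bHor} (F : K8Lab H) (c : K7bPar) (K s D : ℝ) (E : Set (H.Lam × ℝ)) : Prop where
  mdom : MeasurableSet F.dom
  mpr : ∀ h, MeasurableSet (F.pr ⁻¹' {h})
  fin : (F.pr '' F.dom).Finite
  cover : ∀ z ∈ E, z.1 ∈ F.dom
  fit : ∀ l ∈ F.dom, ∀ t ∈ Set.Icc (0 : ℝ) 1, |H.Xt l t - (F.pr l).ev t (H.p l) (H.q0 l)| ≤ K * c.a s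
  norm : ∀ l ∈ F.dom, ∀ t ∈ Set.Icc (0 : ℝ) 1, ∀ p q : ℝ, |p - H.p l| ≤ D → |q - H.q0 l| ≤ D → |(F.pr l).ev t p q| ≤ K
  floor : ∀ z ∈ E, H.gW c.χ D (H.grp c.χ D z.1) * ENNReal.ofReal (c.a s ^ c.d) ≤ ENNReal.ofReal K * H.lam (E ∩ F.inc c.χ D z.1)

theorem K8Lab.Ok.pre {H : K7bHor} {F : K8Lab H} {c : K7bPar} {K s D : ℝ} {E : Set (H.Lam × ℝ)} (h : F.Ok c K s D E) : F.Pre c K s D E :=
  ⟨h.mdom, h.mpr, h.fin, h.cover, h.fit, h.norm, h.floor⟩

/-! ## 1. The hubs -/

/-- **P8.2** `prop:critical-rate` (08 l.74-330).      OWNER helper54 (unit S8c). -/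
def K8HCrit : Prop := ∀ x : K8Exp, x.Ok → 2 * x.k = 1 → K8Exit x

/-- **P8.6** `prop:offcritical-wide` (08 l.808-1100).      OWNER helper98 (unit S8b). -/
def K8HWide : Prop := ∀ x : K8Exp, x.Ok → 2 * x.k ≠ 1 → K8Exit x

/-- **`𝒢(1)`** (08 l.448-450): `a06:horizontal-coefficient-count` with `D = a_s`; predictors = centres of the coefficient bins, no `P`-dependence.      OWNER: S7b (helper95). -/
def K8HGOne : Prop := ∀ x : K8Exp, x.Ok → 2 * x.k ≤ 1 → ∃ smax M0 : ℝ, 0 < smax ∧ K8G x smax M0 1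

/-- hypothesis of L8.4: prepared affine data (stored selection `a.1`) and full-time labels `a.2` at the depth `s`, width `a_s^u` -/
def K8CmpH (s u : ℝ) (H : K7bHor) (a : Set (H.Lam × ℝ) × K8Lab H) (c : K7bPar) (K : ℝ) (E : Set (H.Lam × ℝ)) : Prop :=
  K8Prep H c K a.1 E ∧ a.2.Ok c K s (c.a s ^ u) E

/-- conclusion of L8.4 (current floors restored by `ks_floors`) -/
def K8CmpC (s u : ℝ) (H : K7bHor) (a : Set (H.Lam × ℝ) × K8Lab H) (c : K7bPar) (K : ℝ) (E : Set (H.Lam × ℝ)) : Prop :=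
  K8Prep H c K a.1 E ∧ a.2.Ok c K s (c.a s ^ u) E ∧ a.2.Cmp c K s (c.a s ^ u) E

/-- **L8.4** `a07:full-time-comparison` (08 l.372-440).      OWNER: post BP-252-S8p.   (iii) of the lemma is `K8Prep`. -/
def K8HCmp : Prop := ∀ x : K8Exp, x.Ok → 2 * x.k < 1 → ∃ smax M0 : ℝ, 0 < smax ∧ ∀ u : ℝ, 2 * x.k ≤ u → u ≤ 1 →
    ∀ s : ℝ, 0 < s → s < smax → K8HubAt x M0 (A := fun H => Set (H.Lam × ℝ) × K8Lab H) (K8CmpH s u)
      (fun H a c K E => ∃ E' ⊆ E, H.Res E' (1 / K) ∧ K8CmpC s u H a c K E')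

/-- **one bootstrap step, core** (08 l.452-714): on compared labels at `(s₀, u)` the fitted width improves from `a_{s₀}` to `a_{s₁}`, `s₁ = (1 + α (u - 2k)) s₀`, on the SAME parameter boxes.
OWNERS: post BP-252-S8p (l.452-550: conditional prior, scalar support), helper98 (l.551-714: regularisation, `k5_first_jet`, `k5_first_jet_lists`, new labels). -/
def K8HCore : Prop := ∀ x : K8Exp, x.Ok → 2 * x.k < 1 → ∃ α smax M0 : ℝ, 0 < α ∧ α ≤ 1 ∧ 0 < smax ∧
    ∀ u : ℝ, 2 * x.k < u → u ≤ 1 → ∀ s : ℝ, 0 < s → s * (1 + α * (u - 2 * x.k)) < smax →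
      K8HubAt x M0 (A := fun H => Set (H.Lam × ℝ) × K8Lab H) (K8CmpC s u)
        (fun H _ c K E => ∃ E' ⊆ E, H.Res E' (1 / K) ∧ ∃ F : K8Lab H, F.Ok c K (s * (1 + α * (u - 2 * x.k))) (c.a s ^ u) E')

theorem k8_hub_eqns_cite : True := by
  have := @K8HCrit.eq_1
  have := @K8HWide.eq_1
  have := @K8HGOne.eq_1
  have := @K8CmpH.eq_1
  have := @K8CmpC.eq_1
  have := @K8HCmp.eq_1
  have := @K8HCore.eq_1
  trivial

end Claimed.Agent.R252
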