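-- KEEP
import Claimed.Agent.R252.S8.Hubs

/-!
# Row 252, Sec. 8: RESTORING THE FLOORS of finitely many full-time labellings on one selection      (helper298; prefix `k8f`)      no sorry
Common tool of the leaves L-252-S8-SPLIT and L-252-S8-MULTI.
* `k8f_grp_meas`, `k8f_lab_finite`   measurability and finiteness of the occurring labels `(group, predictor)`
* `k8f_lam_le`       `lam A ≤ K`
* `k8f_num_sum`      floors + disjointness: `∑ gW a_s^d ≤ K²` over distinct labels occurring in the selection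
* `k8f_refloor`      ONE call of `ks_floors` for finitely many labellings
-/

set_option autoImplicit false

namespace Claimed.Agent.R252

open MeasureTheory
open scoped ENNReal BigOperators

theorem k8f_grp_meas {H : K7bHor} {c : K7bPar} {K : ℝ} (h : H.Ok c K) (χ D : ℝ) : Measurable (H.grp χ D) :=
  ((h.mv.div_const _).floor).prodMk (((h.mp.div_const _).floor).prodMk ((h.mq0.div_const _).floor))

theorem k8f_asg_meas {H : K7bHor} {c : K7bPar} {K : ℝ} (h : H.Ok c K) (χ D : ℝ) (F : K8Lab H) (hmd : MeasurableSet F.dom)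
    (hmp : ∀ h, MeasurableSet (F.pr ⁻¹' {h})) (x : (ℤ × ℤ × ℤ) × K8Pr) :
    MeasurableSet {l | l ∈ F.dom ∧ H.grp χ D l = x.1 ∧ F.pr l = x.2} :=
  hmd.inter (((k8f_grp_meas h χ D) (measurableSet_singleton x.1)).inter (hmp x.2))

theorem k8f_bin_mem {m K x : ℝ} (hm : 0 < m) (hx : |x| ≤ K) : k7bBin m x ∈ Set.Icc ⌊-K / m⌋ ⌊K / m⌋ := by
  have h1 := abs_le.1 hx
  exact ⟨Int.floor_le_floor (div_le_div_of_nonneg_right h1.1 hm.le), Int.floor_le_floor (div_le_div_of_nonneg_right h1.2 hm.le)⟩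

theorem k8f_lab_finite {H : K7bHor} {c : K7bPar} {K : ℝ} (h : H.Ok c K) {χ D : ℝ} (hχ : 0 < χ) (hD : 0 < D) (F : K8Lab H)
    (hfin : (F.pr '' F.dom).Finite) {E : Set (H.Lam × ℝ)} (hE : E ⊆ H.Sp) (hcov : ∀ z ∈ E, z.1 ∈ F.dom) :
    ((fun z : H.Lam × ℝ => (H.grp χ D z.1, F.pr z.1)) '' E).Finite := by
  refine Set.Finite.subset (((Set.finite_Icc ⌊-K / χ⌋ ⌊K / χ⌋).prod
    ((Set.finite_Icc ⌊-K / D⌋ ⌊K / D⌋).prod (Set.finite_Icc ⌊-K / D⌋ ⌊K / D⌋))).prod hfin) ?_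
  rintro _ ⟨z, hz, rfl⟩
  have hb := h.bdd z (hE hz)
  exact ⟨⟨k8f_bin_mem hχ hb.2.1, k8f_bin_mem hD hb.1, k8f_bin_mem hD hb.2.2.1⟩, ⟨z.1, hcov z hz, rfl⟩⟩

theorem k8f_lam_le {H : K7bHor} {c : K7bPar} {K : ℝ} (h : H.Ok c K) (A : Set (H.Lam × ℝ)) : H.lam A ≤ ENNReal.ofReal K := by
  have : IsFiniteMeasure H.ν := ⟨lt_of_le_of_lt h.νle ENNReal.one_lt_top⟩
  have h1 : (H.ν.prod k7bTime) Set.univ ≤ 1 := by
    rw [← Set.univ_prod_univ, k7bTime, Measure.prod_prod, Measure.restrict_apply MeasurableSet.univ, Set.univ_inter, Real.volume_Icc]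
    simpa using h.νle
  calc H.lam A ≤ H.lam Set.univ := measure_mono (Set.subset_univ _)
    _ ≤ (ENNReal.ofReal K • H.ν.prod k7bTime) Set.univ := h.dom _
    _ = ENNReal.ofReal K * (H.ν.prod k7bTime) Set.univ := by rw [Measure.smul_apply, smul_eq_mul]
    _ ≤ ENNReal.ofReal K * 1 := mul_le_mul' le_rfl h1
    _ = _ := mul_one _

/-- disjoint labels: `∑ μ (label) ≤ μ univ` -/
theorem k8f_sum_asg {H : K7bHor} {c : K7bPar} {K : ℝ} (h : H.Ok c K) (χ D : ℝ) (F : K8Lab H) (hmd : MeasurableSet F.dom)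
    (hmp : ∀ h, MeasurableSet (F.pr ⁻¹' {h})) (μ : Measure H.Lam) (S : Finset ((ℤ × ℤ × ℤ) × K8Pr)) :
    ∑ x ∈ S, μ {l | l ∈ F.dom ∧ H.grp χ D l = x.1 ∧ F.pr l = x.2} ≤ μ Set.univ := by
  rw [← measure_biUnion_finset _ (fun x _ => k8f_asg_meas h χ D F hmd hmp x)]
  · exact measure_mono (Set.subset_univ _)
  · intro x _ y _ hxy
    refine Set.disjoint_left.2 fun l hl hl' => hxy ?_
    exact Prod.ext (hl.2.1.symm.trans hl'.2.1) (hl.2.2.symm.trans hl'.2.2)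

/-- floors + disjointness -/
theorem k8f_num_sum {H : K7bHor} {c : K7bPar} {K s D : ℝ} (hK : 0 ≤ K) (h : H.Ok c K) {E : Set (H.Lam × ℝ)} (F : K8Lab H)
    (hF : F.Pre c K s D E) (S : Finset ((ℤ × ℤ × ℤ) × K8Pr)) (hS : ∀ x ∈ S, ∃ z ∈ E, (H.grp c.χ D z.1, F.pr z.1) = x) :
    ∑ x ∈ S, H.gW c.χ D x.1 * ENNReal.ofReal (c.a s ^ c.d) ≤ ENNReal.ofReal (K ^ 2) := by
  have h1 : ∀ x ∈ S, H.gW c.χ D x.1 * ENNReal.ofReal (c.a s ^ c.d)
      ≤ ENNReal.ofReal K * ((H.lam.restrict E).map Prod.fst) {l | l ∈ F.dom ∧ H.grp c.χ D l = x.1 ∧ F.pr l = x.2} := by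
    intro x hx
    obtain ⟨z, hz, rfl⟩ := hS x hx
    refine (hF.floor z hz).trans (mul_le_mul' le_rfl ?_)
    rw [Measure.map_apply measurable_fst (k8f_asg_meas h c.χ D F hF.mdom hF.mpr _),
      Measure.restrict_apply (measurable_fst (k8f_asg_meas h c.χ D F hF.mdom hF.mpr _)), Set.inter_comm]
    exact le_rfl
  refine (Finset.sum_le_sum h1).trans ?_
  rw [← Finset.mul_sum]
  calc _ ≤ ENNReal.ofReal K * ((H.lam.restrict E).map Prod.fst) Set.univ :=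
        mul_le_mul' le_rfl (k8f_sum_asg h c.χ D F hF.mdom hF.mpr _ S)
    _ ≤ ENNReal.ofReal K * ENNReal.ofReal K := by
        refine mul_le_mul' le_rfl ?_
        rw [Measure.map_apply measurable_fst MeasurableSet.univ, Set.preimage_univ, Measure.restrict_apply MeasurableSet.univ]
        exact k8f_lam_le h _
    _ = _ := by rw [← ENNReal.ofReal_mul hK, sq]

/-- **ONE call of `ks_floors` for finitely many labellings** on one selection `E`.   `w i = a_s^d`, `B i` = bound of the numerators `∑ gW w`, `κ = 1 / K₁`. -/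
theorem k8f_refloor (H : K7bHor) (c : K7bPar) (hc : c.WF) {K : ℝ} (hok : H.Ok c K) {ι : Type} [Fintype ι]
    (F : ι → K8Lab H) (D : ι → ℝ) (w B : ι → ℝ≥0∞) (κ : ℝ≥0∞) {E : Set (H.Lam × ℝ)} (hE : E ⊆ H.Sp) (hmE : MeasurableSet E)
    (hD : ∀ i, 0 < D i) (hmd : ∀ i, MeasurableSet (F i).dom) (hmp : ∀ i h, MeasurableSet ((F i).pr ⁻¹' {h}))
    (hfin : ∀ i, ((F i).pr '' (F i).dom).Finite) (hcov : ∀ i, ∀ z ∈ E, z.1 ∈ (F i).dom)
    (hB : ∀ i, ∀ S : Finset ((ℤ × ℤ × ℤ) × K8Pr), (∀ x ∈ S, ∃ z ∈ E, (H.grp c.χ (D i) z.1, (F i).pr z.1) = x) →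
      ∑ x ∈ S, H.gW c.χ (D i) x.1 * w i ≤ B i) :
    ∃ E' ⊆ E, MeasurableSet E' ∧ H.lam (E \ E') ≤ κ * ∑ i, (B i + 1) ∧
      ∀ i, ∀ z ∈ E', κ * (H.gW c.χ (D i) (H.grp c.χ (D i) z.1) * w i + H.ν ((F i).asg c.χ (D i) z.1))
        ≤ H.lam (E' ∩ (F i).inc c.χ (D i) z.1) := by
  classical
  have hSf : ∀ i, ((fun z : H.Lam × ℝ => (H.grp c.χ (D i) z.1, (F i).pr z.1)) '' E).Finite := fun i =>
    k8f_lab_finite hok hc.χ0 (hD i) (F i) (hfin i) hE (hcov i)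
  let S : ι → Finset ((ℤ × ℤ × ℤ) × K8Pr) := fun i => (hSf i).toFinset
  have hSmem : ∀ i, ∀ z ∈ E, (H.grp c.χ (D i) z.1, (F i).pr z.1) ∈ S i := fun i z hz =>
    (Set.Finite.mem_toFinset _).2 ⟨z, hz, rfl⟩
  have hSocc : ∀ i, ∀ x ∈ S i, ∃ z ∈ E, (H.grp c.χ (D i) z.1, (F i).pr z.1) = x := fun i x hx =>
    (Set.mem_image _ _ _).1 ((Set.Finite.mem_toFinset (hSf i)).1 hx)
  let L : (i : ι) → (ℤ × ℤ × ℤ) × K8Pr → Set H.Lam := fun i x => {l | l ∈ (F i).dom ∧ H.grp c.χ (D i) l = x.1 ∧ (F i).pr l = x.2}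
  have hLm : ∀ i x, MeasurableSet (L i x) := fun i x => k8f_asg_meas hok c.χ (D i) (F i) (hmd i) (hmp i) x
  let A : (Σ i, {x // x ∈ S i}) → Set (H.Lam × ℝ) := fun y => E ∩ Prod.fst ⁻¹' L y.1 y.2.1
  let θ : (Σ i, {x // x ∈ S i}) → ℝ≥0∞ := fun y => κ * (H.gW c.χ (D y.1) y.2.1.1 * w y.1 + H.ν (L y.1 y.2.1))
  have hAm : ∀ y, MeasurableSet (A y) := fun y => hmE.inter (measurable_fst (hLm _ _))
  obtain ⟨Del, hDel, hkeep⟩ := ks_floors H.lam A θ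
  have hθ : ∑ y, θ y ≤ κ * ∑ i, (B i + 1) := by
    rw [Fintype.sum_sigma, Finset.mul_sum]
    refine Finset.sum_le_sum fun i _ => ?_
    rw [Finset.sum_coe_sort (S i) (fun x => κ * (H.gW c.χ (D i) x.1 * w i + H.ν (L i x))), ← Finset.mul_sum, Finset.sum_add_distrib]
    refine mul_le_mul' le_rfl (add_le_add (hB i (S i) (hSocc i)) ?_)
    exact (k8f_sum_asg hok c.χ (D i) (F i) (hmd i) (hmp i) H.ν (S i)).trans hok.νle
  refine ⟨E \ ⋃ y ∈ Del, A y, Set.sdiff_subset, hmE.diff (Finset.measurableSet_biUnion _ fun y _ => hAm y), ?_, ?_⟩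
  · calc H.lam (E \ (E \ ⋃ y ∈ Del, A y)) ≤ H.lam (⋃ y ∈ Del, A y) := by
          refine measure_mono fun z hz => ?_
          by_contra hn
          exact hz.2 ⟨hz.1, hn⟩
      _ ≤ ∑ y ∈ Del, θ y := hDel
      _ ≤ ∑ y, θ y := Finset.sum_le_sum_of_subset (Finset.subset_univ _)
      _ ≤ _ := hθ
  · intro i z hz
    have hy : (⟨i, ⟨_, hSmem i z hz.1⟩⟩ : Σ i, {x // x ∈ S i}) ∉ Del := by
      intro hd
      refine hz.2 ?_
      simp only [Set.mem_iUnion]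
      exact ⟨_, hd, hz.1, hcov i z hz.1, rfl, rfl⟩
    refine (hkeep _ hy).trans (measure_mono ?_)
    rintro z' ⟨⟨h1, h2⟩, h3⟩
    exact ⟨⟨h1, h3⟩, h2⟩

/-- half of the mass survives -/
theorem k8f_mass_half {Ω : Type*} [MeasurableSpace Ω] (μ : Measure Ω) {K : ℝ} (hK : 0 < K) {E E' : Set Ω}
    (hm : ENNReal.ofReal (1 / K) ≤ μ E) (hl : μ (E \ E') ≤ ENNReal.ofReal (1 / (2 * K))) : ENNReal.ofReal (1 / (2 * K)) ≤ μ E' := by
  have h1 : μ E ≤ μ E' + μ (E \ E') := by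
    refine (measure_mono ?_).trans (measure_union_le _ _)
    intro z hz
    by_cases hz' : z ∈ E'
    · exact Or.inl hz'
    · exact Or.inr ⟨hz, hz'⟩
  have h2 : ENNReal.ofReal (1 / (2 * K)) + ENNReal.ofReal (1 / (2 * K)) ≤ μ E' + ENNReal.ofReal (1 / (2 * K)) := by
    rw [← ENNReal.ofReal_add (by positivity) (by positivity)]
    have e : 1 / (2 * K) + 1 / (2 * K) = 1 / K := by field_simp; norm_num
    rw [e]
    exact hm.trans (h1.trans (add_le_add le_rfl hl))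
  exact (ENNReal.add_le_add_iff_right ENNReal.ofReal_ne_top).1 h2

/-- reading the floors off `k8f_refloor` -/
theorem k8f_read {K1 : ℝ} (hK1 : 0 < K1) {a b m : ℝ≥0∞} (h : (ENNReal.ofReal K1)⁻¹ * (a + b) ≤ m) :
    a ≤ ENNReal.ofReal K1 * m ∧ b ≤ ENNReal.ofReal K1 * m := by
  have h1 : a + b ≤ ENNReal.ofReal K1 * m :=
    (ENNReal.inv_mul_le_iff (ENNReal.ofReal_pos.2 hK1).ne' ENNReal.ofReal_ne_top).1 h
  exact ⟨le_self_add.trans h1, le_add_self.trans h1⟩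

end Claimed.Agent.R252
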