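-- KEEP
import Claimed.Agent.R252.S8.Hubs
import Claimed.Agent.R252.S7b.P4Main

/-!
# Row 252, Sec. 8: the affine preparations of S7b in hub form, leaf L-252-S8-PREP      CONTRACT (one leaf)      (chief helper182; prefix `k8`)
-/

set_option autoImplicit false

namespace Claimed.Agent.R252

open MeasureTheory
open scoped ENNReal BigOperators

theorem k8_prep_consts {n K : ℝ} (hn0 : 0 ≤ n) (hn : n ≤ K) (hK : 1 ≤ K) {K1 K2 : ℝ}
    (h1 : K1 = max 1 (n ^ 2 * K ^ 2 / (1 / (2 * K)))) (h2 : K2 = 12 * K * (1 + 8 * K ^ 6 * K1) ^ 3) :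
    K1 ≤ 117912 * K ^ 37 ∧ K2 ≤ 117912 * K ^ 37 ∧ n * (1 + K) * K2 * K ≤ 117912 * K ^ 37 ∧ 2 * K ≤ 117912 * K ^ 37 := by
  have hK0 : 0 < K := by linarith
  have hp : ∀ a b : ℕ, a ≤ b → K ^ a ≤ K ^ b := fun a b hab => pow_le_pow_right₀ hK hab
  have hp1 : ∀ a : ℕ, 1 ≤ K ^ a := fun a => one_le_pow₀ hK
  have hK1a : K1 ≤ 2 * K ^ 5 := by
    rw [h1]
    refine max_le (by have := hp1 5; linarith) ?_
    have e : n ^ 2 * K ^ 2 / (1 / (2 * K)) = n ^ 2 * (2 * K ^ 3) := by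
      field_simp
    rw [e]
    have h3 : n ^ 2 ≤ K ^ 2 := pow_le_pow_left₀ hn0 hn 2
    calc n ^ 2 * (2 * K ^ 3) ≤ K ^ 2 * (2 * K ^ 3) := mul_le_mul_of_nonneg_right h3 (by positivity)
      _ = 2 * K ^ 5 := by ring
  have hK1pos : 0 ≤ K1 := by rw [h1]; exact le_trans zero_le_one (le_max_left _ _)
  have hin : 1 + 8 * K ^ 6 * K1 ≤ 17 * K ^ 11 := by
    have h3 : 8 * K ^ 6 * K1 ≤ 8 * K ^ 6 * (2 * K ^ 5) := mul_le_mul_of_nonneg_left hK1a (by positivity)
    have h4 : 8 * K ^ 6 * (2 * K ^ 5) = 16 * K ^ 11 := by ring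
    have := hp1 11
    linarith
  have hK2a : K2 ≤ 58956 * K ^ 34 := by
    rw [h2]
    have h3 : (1 + 8 * K ^ 6 * K1) ^ 3 ≤ (17 * K ^ 11) ^ 3 := pow_le_pow_left₀ (by positivity) hin 3
    calc 12 * K * (1 + 8 * K ^ 6 * K1) ^ 3 ≤ 12 * K * (17 * K ^ 11) ^ 3 := mul_le_mul_of_nonneg_left h3 (by positivity)
      _ = 58956 * K ^ 34 := by ring
  have hK2pos : 0 ≤ K2 := by rw [h2]; positivity
  refine ⟨?_, ?_, ?_, ?_⟩
  · have := hp 5 37 (by norm_num)
    have h0 : 0 ≤ K ^ 37 := by positivity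
    linarith
  · have := hp 34 37 (by norm_num)
    have h0 : 0 ≤ K ^ 37 := by positivity
    linarith
  · calc n * (1 + K) * K2 * K ≤ K * (2 * K) * (58956 * K ^ 34) * K := by
          refine mul_le_mul_of_nonneg_right ?_ hK0.le
          refine mul_le_mul ?_ hK2a hK2pos (by positivity)
          exact mul_le_mul hn (by linarith) (by linarith) hK0.le
      _ = 117912 * K ^ 37 := by ring
  · have := hp 1 37 (by norm_num)
    rw [pow_one] at this
    have h0 : 0 ≤ K ^ 37 := by positivity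
    linarith

/-- the affine preparations in hub form.      Leaf L-252-S8-PREP.
PLAN: `k7b_nested_slopes` with `ε = 1/(2K)`, `gap = Real.logb c.N K` (field `K8Inp.grid`: `N^(s-s') ≤ K`; take `N1 = 2`), stored selection `E₀ := E`.   All constants (`k7bK1`, `k7bK2`, `#G (1+K) K₂ N^gap`) are `≤ C K^C`
because `#c.G ≤ K`; choose `τ' = τ / (2C)` and `N1` with `C ≤ N1^(τ/2)`.   Mass: `lam E' ≥ lam E - ε ≥ 1/(2K) ≥ N^(-τ)`.   `G0 = ∅`. -/
theorem k8_prep (x : K8Exp) (M0 : ℝ) :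
    K8HubAt x M0 (A := fun _ => Unit) (fun _ _ _ _ _ => True)
      (fun H _ c K E => ∃ E' ⊆ E, H.Res E' (1 / K) ∧ ∃ E₀ : Set (H.Lam × ℝ), K8Prep H c K E₀ E') := by
  intro M _ _ _ τ hτ
  refine ⟨∅, τ / 74, max 2 ((117912 : ℝ) ^ (2 / τ)), by positivity, fun s hs => absurd hs (Finset.notMem_empty s), ?_⟩
  intro H _ c K E hA hI hK _
  have hc := hA.wf
  have hN2 : 2 ≤ c.N := (le_max_left _ _).trans hA.hN
  have hN1 : 1 < c.N := by linarith
  have hN0 : 0 < c.N := by linarith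
  have hK1 := hI.K1
  have hK0 : 0 < K := by linarith
  have hC : (117912 : ℝ) ≤ c.N ^ (τ / 2) := by
    have h1 : (117912 : ℝ) ^ (2 / τ) ≤ c.N := (le_max_right _ _).trans hA.hN
    calc (117912 : ℝ) = ((117912 : ℝ) ^ (2 / τ)) ^ (τ / 2) := by
          rw [← Real.rpow_mul (by norm_num)]
          have : 2 / τ * (τ / 2) = 1 := by field_simp
          rw [this, Real.rpow_one]
      _ ≤ c.N ^ (τ / 2) := Real.rpow_le_rpow (by positivity) h1 (by positivity)
  have hK37 : K ^ 37 ≤ c.N ^ (τ / 2) := by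
    calc K ^ 37 ≤ (c.N ^ (τ / 74)) ^ 37 := pow_le_pow_left₀ hK0.le hK 37
      _ = c.N ^ (τ / 2) := by
        rw [← Real.rpow_natCast, ← Real.rpow_mul hN0.le]
        congr 1
        push_cast
        ring
  have hbig : 117912 * K ^ 37 ≤ c.N ^ τ := by
    calc _ ≤ c.N ^ (τ / 2) * c.N ^ (τ / 2) := mul_le_mul hC hK37 (by positivity) (by positivity)
      _ = c.N ^ τ := by
        rw [← Real.rpow_add hN0]
        congr 1
        ring
  have hgap : 0 ≤ Real.logb c.N K := Real.logb_nonneg hN1 hK1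
  have hNgap : c.N ^ Real.logb c.N K = K := Real.rpow_logb hN0 hN1.ne' hK0
  obtain ⟨E', hsub, hmE', hloss, hP, hF, hZ, hS⟩ := k7b_nested_slopes c H (K := K) (ε := 1 / (2 * K)) (gap := Real.logb c.N K) hc hK1
    (by positivity) hgap hI.ok hI.res.sub hI.res.meas (by
      intro s hs h0
      obtain ⟨s', a, b, e⟩ := hI.grid s hs h0
      exact ⟨s', a, b, (Real.le_logb_iff_rpow_le hN1 hK0).2 e⟩)
  rw [hNgap] at hS
  obtain ⟨c1, c2, c3, c4⟩ := k8_prep_consts (n := (c.G.card : ℝ)) (Nat.cast_nonneg _) hI.card hK1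
    (K1 := k7bK1 c.G.card K (1 / (2 * K))) (K2 := k7bK2 c.G.card K (1 / (2 * K))) rfl rfl
  have ha : ∀ s, 0 < c.a s := fun s => Real.rpow_pos_of_pos hN0 _
  have hh : ∀ s, 0 < c.h s := fun s => Real.rpow_pos_of_pos hN0 _
  refine ⟨E', hsub, ⟨hsub.trans hI.res.sub, hmE', ?_⟩, E, hsub, hI.res.sub, hI.res.meas, hP.mono (c1.trans hbig) subset_rfl, ?_, ?_, ?_⟩
  · have h1 : H.lam E ≤ H.lam E' + H.lam (E \ E') := by
      refine (measure_mono ?_).trans (measure_union_le _ _)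
      intro z hz
      by_cases hz' : z ∈ E'
      · exact Or.inl hz'
      · exact Or.inr ⟨hz, hz'⟩
    have h2 : ENNReal.ofReal (1 / (2 * K)) + ENNReal.ofReal (1 / (2 * K)) ≤ H.lam E' + ENNReal.ofReal (1 / (2 * K)) := by
      rw [← ENNReal.ofReal_add (by positivity) (by positivity)]
      have e : 1 / (2 * K) + 1 / (2 * K) = 1 / K := by field_simp; norm_num
      rw [e]
      exact hI.res.mass.trans (h1.trans (add_le_add le_rfl hloss))
    have h3 : ENNReal.ofReal (1 / (2 * K)) ≤ H.lam E' := (ENNReal.add_le_add_iff_right ENNReal.ofReal_ne_top).1 h2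
    refine le_trans (ENNReal.ofReal_le_ofReal ?_) h3
    exact one_div_le_one_div_of_le (by positivity) (c4.trans hbig)
  · intro s' hs' s hs hss z hz R hR u hu
    refine (hF s' hs' s hs hss z hz R hR u hu).trans ?_
    have : 0 ≤ R * c.a s' := mul_nonneg (by linarith) (ha s').le
    rw [mul_assoc, mul_assoc]
    exact mul_le_mul_of_nonneg_right (c2.trans hbig) this
  · intro s hs z hz R hR u hu
    exact (hZ s hs z hz R hR u hu).trans (mul_le_mul_of_nonneg_right (c2.trans hbig) (by linarith))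
  · intro s hs z hz
    obtain ⟨a, b, e⟩ := hS s hs z hz
    have p1 : 0 ≤ 1 + c.a s / c.h s := by have := div_pos (ha s) (hh s); linarith
    have p2 : 0 ≤ 1 + c.a s / c.h s ^ 2 := by have := div_pos (ha s) (pow_pos (hh s) 2); linarith
    exact ⟨a.trans (mul_le_mul_of_nonneg_right (c3.trans hbig) p1), b.trans (mul_le_mul_of_nonneg_right (c3.trans hbig) p1),
      e.trans (mul_le_mul_of_nonneg_right (c3.trans hbig) p2)⟩

end Claimed.Agent.R252
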