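-- KEEP
import Claimed.Agent.R252.S8.Floor

/-!
# Row 252, Sec. 8: simultaneous use of the full-time labels at finitely many depths (08 l.792-806), leaf L-252-S8-MULTI      CONTRACT (one leaf)      (chief helper182; prefix `k8`)
-/

set_option autoImplicit false

namespace Claimed.Agent.R252

open MeasureTheory
open scoped ENNReal BigOperators

theorem k8_multi_one (H : K7bHor) (c : K7bPar) (hc : c.WF) {K : ℝ} (hK : 1 ≤ K) (hok : H.Ok c K) (T : Finset ℝ) (Dw : ℝ → ℝ)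
    (hDw : ∀ s ∈ T, 0 < Dw s) (F : ℝ → K8Lab H) (Es : ℝ → Set (H.Lam × ℝ)) {E : Set (H.Lam × ℝ)} (hE : H.Res E (1 / K))
    (hF : ∀ s ∈ T, E ⊆ Es s ∧ (F s).Ok c K s (Dw s) (Es s)) :
    ∃ E' ⊆ E, H.Res E' (1 / (2 * K)) ∧ ∀ s ∈ T, (F s).Ok c (4 * ((T.card : ℝ) + 1) * K ^ 3) s (Dw s) E' := by
  have hK0 : 0 < K := by linarith
  have hKK : 0 < 4 * ((T.card : ℝ) + 1) * K ^ 3 := by positivity
  have hK3 : K ≤ K ^ 3 := by
    have := pow_le_pow_right₀ hK (show 1 ≤ 3 by norm_num)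
    rwa [pow_one] at this
  have hKle : K ≤ 4 * ((T.card : ℝ) + 1) * K ^ 3 := by
    have h1 : (0 : ℝ) ≤ (T.card : ℝ) := Nat.cast_nonneg _
    have h2 : 0 ≤ (T.card : ℝ) * K ^ 3 := by positivity
    nlinarith
  obtain ⟨E', hsub, hmE', hloss, hfl⟩ := k8f_refloor H c hc hok (ι := T) (fun i => F i) (fun i => Dw i)
    (fun i => ENNReal.ofReal (c.a i ^ c.d)) (fun _ => ENNReal.ofReal (K ^ 2)) (ENNReal.ofReal (4 * ((T.card : ℝ) + 1) * K ^ 3))⁻¹
    hE.sub hE.meas (fun i => hDw i i.2) (fun i => (hF i i.2).2.mdom) (fun i => (hF i i.2).2.mpr) (fun i => (hF i i.2).2.fin)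
    (fun i z hz => (hF i i.2).2.cover z ((hF i i.2).1 hz))
    (fun i S hS => k8f_num_sum hK0.le hok (F i) (hF i i.2).2.pre S fun x hx => by
      obtain ⟨z, hz, e⟩ := hS x hx
      exact ⟨z, (hF i i.2).1 hz, e⟩)
  have hloss' : H.lam (E \ E') ≤ ENNReal.ofReal (1 / (2 * K)) := by
    refine hloss.trans ?_
    rw [Finset.sum_const, Finset.card_univ, Fintype.card_coe, nsmul_eq_mul, ← ENNReal.ofReal_inv_of_pos hKK, ← ENNReal.ofReal_one,
      ← ENNReal.ofReal_add (by positivity) zero_le_one, ← ENNReal.ofReal_natCast, ← ENNReal.ofReal_mul (Nat.cast_nonneg _),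
      ← ENNReal.ofReal_mul (by positivity)]
    refine ENNReal.ofReal_le_ofReal ?_
    rw [inv_mul_le_iff₀ hKK, mul_one_div, le_div_iff₀ (by positivity)]
    have h1 : (0 : ℝ) ≤ (T.card : ℝ) := Nat.cast_nonneg _
    have h2 : K ^ 2 + 1 ≤ 2 * K ^ 2 := by nlinarith
    calc (T.card : ℝ) * (K ^ 2 + 1) * (2 * K) ≤ (T.card : ℝ) * (2 * K ^ 2) * (2 * K) := by
          exact mul_le_mul_of_nonneg_right (mul_le_mul_of_nonneg_left h2 h1) (by positivity)
      _ = 4 * (T.card : ℝ) * K ^ 3 := by ring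
      _ ≤ 4 * ((T.card : ℝ) + 1) * K ^ 3 := by
          have : 0 ≤ K ^ 3 := by positivity
          nlinarith
  have hN : 0 < c.N := lt_of_lt_of_le one_pos hc.N1
  refine ⟨E', hsub, ⟨hsub.trans hE.sub, hmE', k8f_mass_half H.lam hK0 hE.mass hloss'⟩, fun s hs => ?_⟩
  have ha : 0 < c.a s := Real.rpow_pos_of_pos hN _
  have hFs := (hF s hs).2
  exact
  { mdom := hFs.mdom, mpr := hFs.mpr, fin := hFs.fin
    cover := fun z hz => hFs.cover z ((hF s hs).1 (hsub hz))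
    fit := fun l hl t ht => (hFs.fit l hl t ht).trans (mul_le_mul_of_nonneg_right hKle ha.le)
    norm := fun l hl t ht p q h1 h2 => (hFs.norm l hl t ht p q h1 h2).trans hKle
    floor := fun z hz => (k8f_read hKK (hfl ⟨s, hs⟩ z hz)).1
    prior := fun z hz => (k8f_read hKK (hfl ⟨s, hs⟩ z hz)).2 }

theorem k8_multi_pre (x : K8Exp) {smax M0 u : ℝ} (h : K8G x smax M0 u) (T : Finset ℝ) (hT : ∀ s ∈ T, 0 < s ∧ s < smax) :
    K8Hub0 x M0 fun H c K E => ∃ E' ⊆ E, H.Res E' (1 / K) ∧ ∃ (F : ℝ → K8Lab H) (Es : ℝ → Set (H.Lam × ℝ)),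
      ∀ s ∈ T, E' ⊆ Es s ∧ (F s).Ok c K s (c.a s ^ u) (Es s) := by
  classical
  induction T using Finset.induction_on with
  | empty =>
    intro M _ _ _ τ hτ
    refine ⟨∅, τ, 1, hτ, fun s hs => absurd hs (Finset.notMem_empty s),
      fun H _ c K E hA hI hK _ => ⟨E, subset_rfl, ?_, fun _ => ⟨∅, fun _ => ⟨0, 0, 0, 0, 0, 0⟩⟩, fun _ => ∅, ?_⟩⟩
    · exact k8_res_mono hI.res (one_div_le_one_div_of_le (lt_of_lt_of_le one_pos hI.K1) hK)
    · intro s hs
      exact absurd hs (Finset.notMem_empty s)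
  | insert s T hsT ih =>
    have hs := hT s (Finset.mem_insert_self s T)
    intro M m1 m2 m3 τ hτ
    obtain ⟨G2, τ2, N2, hτ2, hle2, hG2, H2⟩ := K8HubAt.norm (h s hs.1 hs.2) M m1 m2 m3 τ hτ
    obtain ⟨G1, τ1, N1, hτ1, hle1, hG1, H1⟩ := K8HubAt.norm (ih fun t ht => hT t (Finset.mem_insert_of_mem ht)) M m1 m2 m3 τ2 hτ2
    refine ⟨G1 ∪ G2, τ1, max N1 N2, hτ1, fun t ht => (Finset.mem_union.1 ht).elim (hG1 t) (hG2 t), fun H _ c K E hA hI hK _ => ?_⟩
    obtain ⟨E1, hE1, hR1, F, Es, hFE⟩ := H1 H () c K E (hA.mono Finset.subset_union_left (le_max_left _ _)) hI hK trivial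
    have hK2 : K ≤ c.N ^ τ2 := hK.trans (Real.rpow_le_rpow_of_exponent_le hA.wf.N1 hle1)
    obtain ⟨E2, hE2, hR2, Fs, hFs⟩ := H2 H () c (c.N ^ τ2) E1 (hA.mono Finset.subset_union_right (le_max_right _ _))
      (k8_inp_up hA.wf hI hK2 hR1) le_rfl trivial
    refine ⟨E2, hE2.trans hE1, hR2, Function.update F s Fs, Function.update Es s E2, fun t ht => ?_⟩
    rcases Finset.mem_insert.1 ht with rfl | ht'
    · rw [Function.update_self, Function.update_self]
      exact ⟨subset_rfl, hFs⟩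
    · have hne : t ≠ s := fun e => hsT (e ▸ ht')
      rw [Function.update_of_ne hne, Function.update_of_ne hne]
      exact ⟨hE2.trans (hFE t ht').1, (hFE t ht').2.mono hA.wf (Real.rpow_le_rpow_of_exponent_le hA.wf.N1 hle2)⟩

/-- **simultaneous use** (08 l.792-806): finitely many depths on one dense restriction.      Leaf L-252-S8-MULTI.
PLAN: induction on `T` (`Finset.induction_on`).   Step: apply the induction hypothesis, then `h s` to the restriction (`k8_hub_trans`); the fields `mdom mpr fin cover fit norm` of the earlier labellings persist; their floors are lost.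
Restore ALL floors by ONE call of `ks_floors` at the end (events = labels of all families in the last selection, proposed floors = (old floor numerators `gW a_s^d` and `ν (asg)`) / K₁; each family has numerators of sum `≤ K lam E ≤ K²`, resp. `≤ 1`, by its floors in ITS selection and disjointness; `K₁ = 4 #T K³`).
It is convenient to prove first the one-scale lemma: labellings `F s` (`s ∈ T`) with `(F s).Ok c K s D_s (E_s)`, `E' ⊆ E_s`, `lam E' ≥ 1/K` ⟹ `∃ E'' ⊆ E'`, `lam E'' ≥ 1/(2K)`, `(F s).Ok c (4 #T K³) s D_s E''` for all `s ∈ T`. -/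
theorem k8_multi (x : K8Exp) (hx : x.Ok) {smax M0 u : ℝ} (h : K8G x smax M0 u) (T : Finset ℝ) (hT : ∀ s ∈ T, 0 < s ∧ s < smax) :
    K8Hub0 x M0 fun H c K E => ∃ E' ⊆ E, H.Res E' (1 / K) ∧ ∃ F : ℝ → K8Lab H, ∀ s ∈ T, (F s).Ok c K s (c.a s ^ u) E' := by
  intro M m1 m2 m3 τ hτ
  obtain ⟨G1, τ1, N1, hτ1, hle1, hG1, H1⟩ := K8HubAt.norm (k8_multi_pre x h T hT) M m1 m2 m3 (τ / 4) (by positivity)
  obtain ⟨C, hC⟩ : ∃ C : ℝ, C = 4 * ((T.card : ℝ) + 1) := ⟨_, rfl⟩
  have hC4 : 4 ≤ C := by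
    have h1 : (0 : ℝ) ≤ (T.card : ℝ) := Nat.cast_nonneg _
    rw [hC]
    linarith
  refine ⟨G1, τ1, max N1 (C ^ (4 / τ)), hτ1, hG1, fun H _ c K E hA hI hK _ => ?_⟩
  have hc := hA.wf
  have hN0 : 0 < c.N := lt_of_lt_of_le one_pos hc.N1
  obtain ⟨E1, hE1, hR1, F, Es, hFE⟩ := H1 H () c K E (hA.mono subset_rfl (le_max_left _ _)) hI hK trivial
  have hK0 : K ≤ c.N ^ (τ / 4) := hK.trans (Real.rpow_le_rpow_of_exponent_le hc.N1 hle1)
  have hK01 : 1 ≤ c.N ^ (τ / 4) := hI.K1.trans hK0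
  have hok0 : H.Ok c (c.N ^ (τ / 4)) := k8_ok_mono hc (lt_of_lt_of_le one_pos hI.K1) hK0 hI.ok
  obtain ⟨E2, hE2, hR2, hF2⟩ := k8_multi_one H c hc hK01 hok0 T (fun s => c.a s ^ u)
    (fun s _ => Real.rpow_pos_of_pos (Real.rpow_pos_of_pos hN0 _) _) F Es hR1 hFE
  have hCN : C ≤ c.N ^ (τ / 4) := by
    have h1 : C ^ (4 / τ) ≤ c.N := (le_max_right _ _).trans hA.hN
    calc C = (C ^ (4 / τ)) ^ (τ / 4) := by
          rw [← Real.rpow_mul (by linarith)]
          have : 4 / τ * (τ / 4) = 1 := by field_simp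
          rw [this, Real.rpow_one]
      _ ≤ c.N ^ (τ / 4) := Real.rpow_le_rpow (Real.rpow_nonneg (by linarith) _) h1 (by positivity)
  have hbig : C * (c.N ^ (τ / 4)) ^ 3 ≤ c.N ^ τ := by
    calc C * (c.N ^ (τ / 4)) ^ 3 ≤ c.N ^ (τ / 4) * (c.N ^ (τ / 4)) ^ 3 := mul_le_mul_of_nonneg_right hCN (by positivity)
      _ = c.N ^ τ := by
        rw [← pow_succ', ← Real.rpow_natCast, ← Real.rpow_mul hN0.le]
        congr 1
        push_cast
        ring
  have h2K : 2 * c.N ^ (τ / 4) ≤ c.N ^ τ := by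
    refine le_trans ?_ hbig
    have h3 : c.N ^ (τ / 4) ≤ (c.N ^ (τ / 4)) ^ 3 := by
      have := pow_le_pow_right₀ hK01 (show 1 ≤ 3 by norm_num)
      rwa [pow_one] at this
    exact mul_le_mul (by linarith) h3 (by positivity) (by linarith)
  refine ⟨E2, hE2.trans hE1, k8_res_mono hR2 (one_div_le_one_div_of_le (by positivity) h2K), F, fun s hs => ?_⟩
  refine (hF2 s hs).mono hc ?_
  rw [← hC]
  exact hbig

end Claimed.Agent.R252
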