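-- KEEP
import Claimed.Agent.R252.S8.Floor

/-!
# Row 252, Sec. 8: endpoint split at one scale (08 l.765-790), leaf L-252-S8-SPLIT      CONTRACT (one leaf)      (chief helper182; prefix `k8`)
-/

set_option autoImplicit false

namespace Claimed.Agent.R252

open MeasureTheory
open scoped ENNReal BigOperators

theorem k8_split_two {D Ds p : ℝ} (hD : 0 < D) (hDs : D ≤ Ds) :
    k7bBin Ds p = ⌊(k7bBin D p : ℝ) * D / Ds⌋ ∨ k7bBin Ds p = ⌊(k7bBin D p : ℝ) * D / Ds⌋ + 1 := by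
  have hDs0 : 0 < Ds := hD.trans_le hDs
  unfold k7bBin
  set m : ℤ := ⌊p / D⌋ with hm
  have h1 : (m : ℝ) * D ≤ p := by
    have := Int.floor_le (p / D)
    rwa [le_div_iff₀ hD] at this
  have h2 : p < ((m : ℝ) + 1) * D := by
    have := Int.lt_floor_add_one (p / D)
    rwa [div_lt_iff₀ hD] at this
  have h3 : ⌊(m : ℝ) * D / Ds⌋ ≤ ⌊p / Ds⌋ := Int.floor_le_floor (div_le_div_of_nonneg_right h1 hDs0.le)
  have h4 : ⌊p / Ds⌋ < ⌊(m : ℝ) * D / Ds⌋ + 2 := by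
    rw [Int.floor_lt]
    have h5 := Int.lt_floor_add_one ((m : ℝ) * D / Ds)
    have h6 : p / Ds < (m : ℝ) * D / Ds + 1 := by
      rw [div_add_one hDs0.ne', div_lt_div_iff_of_pos_right hDs0]
      nlinarith
    push_cast
    linarith
  omega

theorem k8_split_ext (h : K8Pr) {K D Ds t pc qc p q : ℝ} (hD : 0 < D) (hDs : D ≤ Ds)
    (hb : ∀ p q : ℝ, |p - pc| ≤ D → |q - qc| ≤ D → |h.ev t p q| ≤ K) (hp : |p - pc| ≤ Ds) (hq : |q - qc| ≤ Ds) :
    |h.ev t p q| ≤ K * (1 + 2 * (Ds / D)) := by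
  have hDs0 : 0 < Ds := hD.trans_le hDs
  have hR : 0 < Ds / D := div_pos hDs0 hD
  have e : h.ev t p q = h.ev t pc qc + Ds / D * (h.ev t (pc + (p - pc) / (Ds / D)) (qc + (q - qc) / (Ds / D)) - h.ev t pc qc) := by
    unfold K8Pr.ev
    field_simp
    ring
  have h0 : |h.ev t pc qc| ≤ K := hb pc qc (by simpa using hD.le) (by simpa using hD.le)
  have hsm : ∀ x : ℝ, |x| ≤ Ds → |x / (Ds / D)| ≤ D := by
    intro x hx
    rw [abs_div, abs_of_pos hR, div_le_iff₀ hR]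
    calc |x| ≤ Ds := hx
      _ = D * (Ds / D) := by field_simp
  have h1 : |h.ev t (pc + (p - pc) / (Ds / D)) (qc + (q - qc) / (Ds / D))| ≤ K :=
    hb _ _ (by simpa using hsm _ hp) (by simpa using hsm _ hq)
  rw [e]
  have h2 : |Ds / D * (h.ev t (pc + (p - pc) / (Ds / D)) (qc + (q - qc) / (Ds / D)) - h.ev t pc qc)| ≤ Ds / D * (K + K) := by
    rw [abs_mul, abs_of_pos hR]
    exact mul_le_mul_of_nonneg_left ((abs_sub _ _).trans (add_le_add h1 h0)) hR.le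
  calc _ ≤ |h.ev t pc qc| + _ := abs_add_le _ _
    _ ≤ K + Ds / D * (K + K) := add_le_add h0 h2
    _ = _ := by ring

theorem k8_split_num (H : K7bHor) (c : K7bPar) {K s D Ds : ℝ} {E : Set (H.Lam × ℝ)} (F : K8Lab H) (hK : 0 ≤ K) (hok : H.Ok c K)
    (hD : 0 < D) (hDs : D ≤ Ds) (hF : F.Pre c K s D E) (S : Finset ((ℤ × ℤ × ℤ) × K8Pr))
    (hS : ∀ x ∈ S, ∃ z ∈ E, (H.grp c.χ Ds z.1, F.pr z.1) = x) :
    ∑ x ∈ S, H.gW c.χ Ds x.1 * ENNReal.ofReal (c.a s ^ c.d) ≤ ENNReal.ofReal (4 * K ^ 2 * (Ds / D) ^ 2) := by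
  classical
  rcases S.eq_empty_or_nonempty with rfl | ⟨x0, hx0⟩
  · simp
  obtain ⟨z0, -, -⟩ := hS x0 hx0
  have : Nonempty (H.Lam × ℝ) := ⟨z0⟩
  choose! zf hzE hzl using hS
  let o : (ℤ × ℤ × ℤ) × K8Pr → (ℤ × ℤ × ℤ) × K8Pr := fun x => (H.grp c.χ D (zf x).1, F.pr (zf x).1)
  have h1 : ∀ x ∈ S, H.gW c.χ Ds x.1 * ENNReal.ofReal (c.a s ^ c.d)
      = ENNReal.ofReal ((Ds / D) ^ 2) * (H.gW c.χ D (o x).1 * ENNReal.ofReal (c.a s ^ c.d)) := by
    intro x hx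
    have e1 : x.1.1 = (o x).1.1 := (congrArg (fun y : (ℤ × ℤ × ℤ) × K8Pr => y.1.1) (hzl x hx)).symm
    have e2 : ENNReal.ofReal (Ds ^ 2) = ENNReal.ofReal ((Ds / D) ^ 2) * ENNReal.ofReal (D ^ 2) := by
      rw [← ENNReal.ofReal_mul (by positivity)]
      congr 1
      field_simp
    unfold K7bHor.gW
    rw [e1, e2]
    ring
  rw [Finset.sum_congr rfl h1, ← Finset.mul_sum,
    Finset.sum_comp (fun y => H.gW c.χ D y.1 * ENNReal.ofReal (c.a s ^ c.d)) o]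
  have h2 : ∀ y ∈ S.image o, (S.filter fun x => o x = y).card ≤ 4 := by
    intro y _
    have hsub : (S.filter fun x => o x = y) ⊆
        ((({⌊(y.1.2.1 : ℝ) * D / Ds⌋, ⌊(y.1.2.1 : ℝ) * D / Ds⌋ + 1} : Finset ℤ) ×ˢ
          ({⌊(y.1.2.2 : ℝ) * D / Ds⌋, ⌊(y.1.2.2 : ℝ) * D / Ds⌋ + 1} : Finset ℤ)).image fun ab => ((y.1.1, ab.1, ab.2), y.2)) := by
      intro x hx
      obtain ⟨hxS, hxy⟩ := Finset.mem_filter.1 hx
      have e := hzl x hxS
      have e11 : k7bBin c.χ (H.v (zf x).1) = x.1.1 := congrArg (fun y : (ℤ × ℤ × ℤ) × K8Pr => y.1.1) e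
      have e121 : k7bBin Ds (H.p (zf x).1) = x.1.2.1 := congrArg (fun y : (ℤ × ℤ × ℤ) × K8Pr => y.1.2.1) e
      have e122 : k7bBin Ds (H.q0 (zf x).1) = x.1.2.2 := congrArg (fun y : (ℤ × ℤ × ℤ) × K8Pr => y.1.2.2) e
      have e2 : F.pr (zf x).1 = x.2 := congrArg (fun y : (ℤ × ℤ × ℤ) × K8Pr => y.2) e
      have f11 : k7bBin c.χ (H.v (zf x).1) = y.1.1 := congrArg (fun y : (ℤ × ℤ × ℤ) × K8Pr => y.1.1) hxy
      have f121 : k7bBin D (H.p (zf x).1) = y.1.2.1 := congrArg (fun y : (ℤ × ℤ × ℤ) × K8Pr => y.1.2.1) hxy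
      have f122 : k7bBin D (H.q0 (zf x).1) = y.1.2.2 := congrArg (fun y : (ℤ × ℤ × ℤ) × K8Pr => y.1.2.2) hxy
      have f2 : F.pr (zf x).1 = y.2 := congrArg (fun y : (ℤ × ℤ × ℤ) × K8Pr => y.2) hxy
      refine Finset.mem_image.2 ⟨(x.1.2.1, x.1.2.2), ?_, ?_⟩
      · rw [Finset.mem_product]
        simp only [Finset.mem_insert, Finset.mem_singleton]
        rw [← e121, ← e122, ← f121, ← f122]
        exact ⟨k8_split_two hD hDs, k8_split_two hD hDs⟩
      · refine Prod.ext (Prod.ext ?_ rfl) ?_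
        · exact f11.symm.trans e11
        · exact f2.symm.trans e2
    refine (Finset.card_le_card hsub).trans (Finset.card_image_le.trans ?_)
    rw [Finset.card_product]
    exact Nat.mul_le_mul Finset.card_le_two Finset.card_le_two
  have h3 : ∑ y ∈ S.image o, (S.filter fun x => o x = y).card • (H.gW c.χ D y.1 * ENNReal.ofReal (c.a s ^ c.d))
      ≤ 4 * ENNReal.ofReal (K ^ 2) := by
    calc _ ≤ ∑ y ∈ S.image o, 4 • (H.gW c.χ D y.1 * ENNReal.ofReal (c.a s ^ c.d)) :=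
          Finset.sum_le_sum fun y hy => nsmul_le_nsmul_left zero_le (h2 y hy)
      _ = 4 * ∑ y ∈ S.image o, H.gW c.χ D y.1 * ENNReal.ofReal (c.a s ^ c.d) := by
          rw [← Finset.smul_sum, nsmul_eq_mul]
          rfl
      _ ≤ _ := by
          refine mul_le_mul' le_rfl (k8f_num_sum hK hok F hF _ ?_)
          intro y hy
          obtain ⟨x, hx, rfl⟩ := Finset.mem_image.1 hy
          exact ⟨zf x, hzE x hx, rfl⟩
  calc _ ≤ ENNReal.ofReal ((Ds / D) ^ 2) * (4 * ENNReal.ofReal (K ^ 2)) := mul_le_mul' le_rfl h3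
    _ = _ := by
      rw [show (4 : ℝ≥0∞) = ENNReal.ofReal 4 by norm_num, ← ENNReal.ofReal_mul (by norm_num), ← ENNReal.ofReal_mul (by positivity)]
      congr 1
      ring

/-- the same from `K8Lab.Pre` (the field `prior` of the input is never used); with `Ds = D` it restores `Ok` from `Pre` -/
theorem k8_split_pre (H : K7bHor) (c : K7bPar) (hc : c.WF) {K s D Ds : ℝ} {E : Set (H.Lam × ℝ)} (F : K8Lab H)
    (hI : K8Inp H c K E) (hD : 0 < D) (hDs : D ≤ Ds) (hF : F.Pre c K s D E) :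
    ∃ E' ⊆ E, H.Res E' (1 / (2 * K)) ∧ F.Ok c (16 * K ^ 3 * (Ds / D) ^ 2) s Ds E' := by
  have hK1 := hI.K1
  have hK0 : 0 < K := by linarith
  have hDs0 : 0 < Ds := hD.trans_le hDs
  have hR1 : 1 ≤ Ds / D := (one_le_div hD).2 hDs
  obtain ⟨R, hR⟩ : ∃ R, R = Ds / D := ⟨_, rfl⟩
  rw [← hR] at hR1 ⊢
  have hR0 : 0 < R := by linarith
  have hKK : 0 < 16 * K ^ 3 * R ^ 2 := by positivity
  have hK3 : K ≤ K ^ 3 := by
    have := pow_le_pow_right₀ hK1 (show 1 ≤ 3 by norm_num)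
    rwa [pow_one] at this
  have hR2 : R ≤ R ^ 2 := by nlinarith
  have hKR : K * R ≤ K ^ 3 * R ^ 2 := mul_le_mul hK3 hR2 hR0.le (by positivity)
  have hKle : K ≤ 16 * K ^ 3 * R ^ 2 := by nlinarith
  obtain ⟨E', hsub, hmE', hloss, hfl⟩ := k8f_refloor H c hc hI.ok (ι := Unit) (fun _ => F) (fun _ => Ds)
    (fun _ => ENNReal.ofReal (c.a s ^ c.d)) (fun _ => ENNReal.ofReal (4 * K ^ 2 * R ^ 2)) (ENNReal.ofReal (16 * K ^ 3 * R ^ 2))⁻¹
    hI.res.sub hI.res.meas (fun _ => hDs0) (fun _ => hF.mdom) (fun _ => hF.mpr) (fun _ => hF.fin) (fun _ => hF.cover)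
    (fun _ S hS => by
      rw [hR]
      exact k8_split_num H c F hK0.le hI.ok hD hDs hF S hS)
  have hloss' : H.lam (E \ E') ≤ ENNReal.ofReal (1 / (2 * K)) := by
    refine hloss.trans ?_
    rw [Finset.univ_unique, Finset.sum_singleton, ← ENNReal.ofReal_inv_of_pos hKK, ← ENNReal.ofReal_one,
      ← ENNReal.ofReal_add (by positivity) zero_le_one, ← ENNReal.ofReal_mul (by positivity)]
    refine ENNReal.ofReal_le_ofReal ?_
    rw [inv_mul_le_iff₀ hKK, mul_one_div, le_div_iff₀ (by positivity)]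
    have e : (4 * K ^ 2 * R ^ 2 + 1) * (2 * K) = 8 * (K ^ 3 * R ^ 2) + 2 * K := by ring
    rw [e]
    nlinarith
  have hN : 0 < c.N := lt_of_lt_of_le one_pos hc.N1
  have ha : 0 < c.a s := Real.rpow_pos_of_pos hN _
  refine ⟨E', hsub, ⟨hsub.trans hI.res.sub, hmE', k8f_mass_half H.lam hK0 hI.res.mass hloss'⟩, ?_⟩
  exact
  { mdom := hF.mdom, mpr := hF.mpr, fin := hF.fin
    cover := fun z hz => hF.cover z (hsub hz)
    fit := fun l hl t ht => (hF.fit l hl t ht).trans (mul_le_mul_of_nonneg_right hKle ha.le)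
    norm := fun l hl t ht p q h1 h2 => by
      refine (k8_split_ext (F.pr l) hD hDs (hF.norm l hl t ht) h1 h2).trans ?_
      rw [← hR]
      nlinarith
    floor := fun z hz => (k8f_read hKK (hfl () z hz)).1
    prior := fun z hz => (k8f_read hKK (hfl () z hz)).2 }

/-- **endpoint split at one scale** (08 l.765-790).      Leaf L-252-S8-SPLIT.
The SAME labelling, regrouped by the coarser parameter bins `Ds ≥ D`.   PLAN: events `A (g*, h) = E ∩ {grp χ Ds = g*, pr = h}` (finitely many: `Ok.fin`, `H.Ok.bdd`), proposed floors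
`θ = gW χ Ds g* a_s^d / (16 K³ R²) + ν (asg) / (4 K)`, `R = Ds / D`.   `∑ ν(asg) ≤ 1` (disjoint, `H.Ok.νle`).   A new label contains an old label occurring in `E` whose `D`-bin meets the `Ds`-bin; an old label is used by `≤ 4` new ones;
old floors + disjointness: `∑_old gW χ D g a_s^d ≤ K lam E ≤ K²` (`H.Ok.dom`, `νle`);  so `∑ θ ≤ 1/(2K)`.   Then `ks_floors`.   Norm: an affine function bounded by `K` on a square of half-side `D` is `≤ K (1 + 2R)` on the concentric square of half-side `Ds`. -/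
theorem k8_split (H : K7bHor) (c : K7bPar) (hc : c.WF) {K s D Ds : ℝ} {E : Set (H.Lam × ℝ)} (F : K8Lab H)
    (hI : K8Inp H c K E) (hD : 0 < D) (hDs : D ≤ Ds) (hF : F.Ok c K s D E) :
    ∃ E' ⊆ E, H.Res E' (1 / (2 * K)) ∧ F.Ok c (16 * K ^ 3 * (Ds / D) ^ 2) s Ds E' :=
  k8_split_pre H c hc F hI hD hDs hF.pre

end Claimed.Agent.R252
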