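-- KEEP
import Claimed.Agent.R252.S8.Split
import Claimed.Agent.R252.S8.Prep
import Claimed.Agent.R252.S8.Multi

/-!
# Row 252, Sec. 8: THE CHAIN (glue between the hubs of `S8/Hubs.lean`)      no sorry in this file      (helper182; prefix `k8`)
-/

set_option autoImplicit false

namespace Claimed.Agent.R252

open MeasureTheory
open scoped ENNReal BigOperators

/-- **one bootstrap step**: `𝒢(u) ⟹ 𝒢(u / (1 + α (u - 2k)))`, uniformly in `u` -/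
theorem k8_step (hCmp : K8HCmp) (hCore : K8HCore) (x : K8Exp) (hx : x.Ok) (hk : 2 * x.k < 1) : ∃ α smax M0 : ℝ, 0 < α ∧ α ≤ 1 ∧ 0 < smax ∧
    ∀ smax' M0' : ℝ, smax' ≤ smax → M0 ≤ M0' → ∀ u : ℝ, 2 * x.k < u → u ≤ 1 → K8G x smax' M0' u → K8G x smax' M0' (k8Next x.k α u) := by
  obtain ⟨sC, MC, hsC, hC⟩ := hCmp x hx hk
  obtain ⟨α, sK, MK, hα, hα1, hsK, hK⟩ := hCore x hx hk
  refine ⟨α, min sC sK, max MC MK, hα, hα1, lt_min hsC hsK, fun smax' M0' hs hM u hu0 hu1 hG s1 hs10 hs11 => ?_⟩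
  have hθ : 0 < α * (u - 2 * x.k) := mul_pos hα (by linarith)
  set θ := α * (u - 2 * x.k) with hθd
  set s0 := s1 / (1 + θ) with hs0d
  have h1θ : 0 < 1 + θ := by linarith
  have hs00 : 0 < s0 := div_pos hs10 h1θ
  have hs01 : s0 * (1 + θ) = s1 := by rw [hs0d]; field_simp
  have hs0s1 : s0 < s1 := by nlinarith
  -- (a) preparation
  have ha := k8_prep x M0'
  -- (b) the labels of `𝒢(u)` at `s0`, carrying the preparation
  have hb0 : K8HubAt x M0' (A := fun H => Set (H.Lam × ℝ)) (fun _ _ _ _ _ => True)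
      (fun H _ c K E => ∃ E' ⊆ E, H.Res E' (1 / K) ∧ ∃ F : K8Lab H, F.Ok c K s0 (c.a s0 ^ u) E') :=
    K8HubAt.imp (hG s0 hs00 (hs0s1.trans hs11)) (fun _ _ => ()) (fun _ _ _ _ _ _ => trivial) (fun _ _ _ _ _ _ h => h)
  have hb := k8_hub_frame (P := fun H (E₀ : Set (H.Lam × ℝ)) c K E => K8Prep H c K E₀ E)
    (Mid := fun H _ (F : K8Lab H) c K E => F.Ok c K s0 (c.a s0 ^ u) E)
    (fun H a c K K' E E' hc _ hKK hE h => h.mono hc hKK hE) hb0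
  have hab : K8HubAt x M0' (A := fun _ => Unit) (fun _ _ _ _ _ => True)
      (fun H _ c K E => ∃ E' ⊆ E, H.Res E' (1 / K) ∧ ∃ b : Set (H.Lam × ℝ) × K8Lab H, K8CmpH s0 u H b c K E') := by
    refine k8_hub_trans (B := fun H => Set (H.Lam × ℝ)) (Mid := fun H E₀ c K E => True ∧ K8Prep H c K E₀ E) ?_ hb ?_
    · exact K8HubAt.imp ha (fun _ a => a) (fun _ _ _ _ _ h => h) (fun H _ c K E _ ⟨E', h1, h2, E₀, h3⟩ => ⟨E', h1, h2, E₀, trivial, h3⟩)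
    · rintro H _ E₀ c K E E' hE ⟨E'', h1, h2, F, h3, h4⟩
      exact ⟨E'', h1.trans hE, h2, (E₀, F), h4, h3⟩
  -- (c) comparison
  have hc := K8HubAt.mono (hC u hu0.le hu1 s0 hs00 ((hs0s1.trans hs11).trans_le (hs.trans (min_le_left _ _)))) ((le_max_left _ _).trans hM)
  have habc : K8HubAt x M0' (A := fun _ => Unit) (fun _ _ _ _ _ => True)
      (fun H _ c K E => ∃ E' ⊆ E, H.Res E' (1 / K) ∧ ∃ b : Set (H.Lam × ℝ) × K8Lab H, K8CmpC s0 u H b c K E') := by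
    refine k8_hub_trans hab hc ?_
    rintro H _ b c K E E' hE ⟨E'', h1, h2, h3⟩
    exact ⟨E'', h1.trans hE, h2, b, h3⟩
  -- (d) the core
  have hd := K8HubAt.mono (hK u hu0 hu1 s0 hs00 (by rw [hs01]; exact hs11.trans_le (hs.trans (min_le_right _ _)))) ((le_max_right _ _).trans hM)
  have hfin : K8HubAt x M0' (A := fun _ => Unit) (fun _ _ _ _ _ => True)
      (fun H _ c K E => ∃ E' ⊆ E, H.Res E' (1 / K) ∧ ∃ F : K8Lab H, F.Ok c K (s0 * (1 + θ)) (c.a s0 ^ u) E') := by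
    refine k8_hub_trans habc hd ?_
    rintro H _ b c K E E' hE ⟨E'', h1, h2, h3⟩
    exact ⟨E'', h1.trans hE, h2, h3⟩
  refine K8HubAt.imp hfin (fun _ a => a) (fun _ _ _ _ _ h => h) ?_
  rintro H _ c K E hc ⟨E', h1, h2, F, h3⟩
  refine ⟨E', h1, h2, F, ?_⟩
  have hN0 : 0 < c.N := lt_of_lt_of_le one_pos hc.N1
  have e : c.a s1 ^ k8Next x.k α u = c.a s0 ^ u := by
    show (c.N ^ (-s1)) ^ (u / (1 + α * (u - 2 * x.k))) = (c.N ^ (-s0)) ^ u
    rw [← Real.rpow_mul hN0.le, ← Real.rpow_mul hN0.le, ← hs01, ← hθd]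
    congr 1
    field_simp
  rw [e, ← hs01]
  exact h3

/-- **the endpoint** (08 l.745-790): `𝒢(u_j)` for all `j` implies `𝒢(2k)` -/
theorem k8_end (x : K8Exp) (hx : x.Ok) (hk : 2 * x.k < 1) {α smax M0 : ℝ} (hα : 0 < α) (hα1 : α ≤ 1)
    (h : ∀ j, K8G x smax M0 (k8U x.k α j)) : K8G x smax M0 (2 * x.k) := by
  intro s hs0 hs1 M m1 m2 m3 τ hτ
  obtain ⟨j, hj⟩ := k8_U_lim hx.k0 hk hα hα1 (ε := τ / (8 * s)) (by positivity)
  have hj0 := (k8_U_bounds hx.k0 hk hα hα1 j).1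
  set u := k8U x.k α j with hu
  obtain ⟨G0, τ', N1, hτ', hle, hG0, hh⟩ := K8HubAt.norm (h j s hs0 hs1) M m1 m2 m3 (τ / 8) (by positivity)
  refine ⟨G0, τ', max N1 ((16 : ℝ) ^ (1 / (3 * τ / 8))), hτ', hG0, fun H a c K E hA hI hK _ => ?_⟩
  obtain ⟨E', hE', hR, F, hF⟩ := hh H a c K E (hA.mono subset_rfl (le_max_left _ _)) hI hK trivial
  have hc := hA.wf
  have hN1 : 1 ≤ c.N := hc.N1
  have hN0 : 0 < c.N := by linarith
  have h16 : (16 : ℝ) ≤ c.N ^ (3 * τ / 8) :=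
    k8_const_le (by norm_num) (by positivity) ((le_max_right _ _).trans hA.hN)
  have hI' : K8Inp H c (c.N ^ (τ / 8)) E' :=
    k8_inp_up hc hI (hK.trans (Real.rpow_le_rpow_of_exponent_le hN1 hle)) hR
  have ha0 : 0 < c.a s := Real.rpow_pos_of_pos hN0 _
  have ha1 : c.a s ≤ 1 := Real.rpow_le_one_of_one_le_of_nonpos hN1 (by linarith)
  have hD0 : 0 < c.a s ^ u := Real.rpow_pos_of_pos ha0 _
  have hDle : c.a s ^ u ≤ c.a s ^ (2 * x.k) := Real.rpow_le_rpow_of_exponent_ge ha0 ha1 hj0.le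
  obtain ⟨E'', hE'', hR'', hF''⟩ := k8_split H c hc F hI' hD0 hDle hF
  have hratio : c.a s ^ (2 * x.k) / c.a s ^ u ≤ c.N ^ (τ / 8) := by
    rw [← Real.rpow_sub ha0]
    show (c.N ^ (-s)) ^ (2 * x.k - u) ≤ _
    rw [← Real.rpow_mul hN0.le]
    refine Real.rpow_le_rpow_of_exponent_le hN1 ?_
    have h1 : (u - 2 * x.k) * s < τ / (8 * s) * s := mul_lt_mul_of_pos_right hj hs0
    have h2 : τ / (8 * s) * s = τ / 8 := by field_simp
    nlinarith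
  have hratio0 : 0 ≤ c.a s ^ (2 * x.k) / c.a s ^ u := by positivity
  have hP : ∀ e : ℝ, 0 < c.N ^ e := fun e => Real.rpow_pos_of_pos hN0 e
  have hfin : 16 * (c.N ^ (τ / 8)) ^ 3 * (c.a s ^ (2 * x.k) / c.a s ^ u) ^ 2 ≤ c.N ^ τ := by
    have e1 : c.N ^ τ = c.N ^ (3 * τ / 8) * ((c.N ^ (τ / 8)) ^ 3 * (c.N ^ (τ / 8)) ^ 2) := by
      rw [← pow_add, ← Real.rpow_natCast, ← Real.rpow_mul hN0.le, ← Real.rpow_add hN0]
      congr 1
      push_cast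
      ring
    rw [e1, mul_assoc]
    have h3 : (c.a s ^ (2 * x.k) / c.a s ^ u) ^ 2 ≤ (c.N ^ (τ / 8)) ^ 2 := pow_le_pow_left₀ hratio0 hratio 2
    have h4 : 0 ≤ (c.N ^ (τ / 8)) ^ 3 := (pow_pos (hP _) 3).le
    exact mul_le_mul h16 (mul_le_mul_of_nonneg_left h3 h4) (by positivity) (hP _).le
  have h2K : 2 * c.N ^ (τ / 8) ≤ c.N ^ τ := by
    have e1 : c.N ^ τ = c.N ^ (3 * τ / 8) * c.N ^ (τ / 8) * c.N ^ (τ / 2) := by
      rw [← Real.rpow_add hN0, ← Real.rpow_add hN0]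
      congr 1
      ring
    have h5 : 1 ≤ c.N ^ (τ / 2) := Real.one_le_rpow hN1 (by positivity)
    have h6 : 2 * c.N ^ (τ / 8) ≤ c.N ^ (3 * τ / 8) * c.N ^ (τ / 8) :=
      mul_le_mul_of_nonneg_right (by linarith) (hP _).le
    rw [e1]
    nlinarith [hP (3 * τ / 8), hP (τ / 8)]
  refine ⟨E'', hE''.trans hE', k8_res_mono hR'' ?_, F, hF''.mono hc hfin⟩
  exact one_div_le_one_div_of_le (by have := hP (τ / 8); positivity) h2K

/-- **P8.5** `prop:bootstrap` -/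
theorem k8_boot (hOne : K8HGOne) (hCmp : K8HCmp) (hCore : K8HCore) (x : K8Exp) (hx : x.Ok) (hk : 2 * x.k < 1) :
    ∃ smax M0 : ℝ, 0 < smax ∧ K8G x smax M0 (2 * x.k) := by
  obtain ⟨s1, M1, hs1, h1⟩ := hOne x hx hk.le
  obtain ⟨α, s2, M2, hα, hα1, hs2, h2⟩ := k8_step hCmp hCore x hx hk
  refine ⟨min s1 s2, max M1 M2, lt_min hs1 hs2, k8_end x hx hk hα hα1 fun j => ?_⟩
  induction j with
  | zero => exact h1.mono (min_le_left _ _) (le_max_left _ _)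
  | succ j ih =>
    exact h2 _ _ (min_le_right _ _) (le_max_right _ _) _ (k8_U_bounds hx.k0 hk hα hα1 j).1 (k8_U_le_one hx.k0 hk hα hα1 j) ih

/-- **the exit of Sec. 8** -/
theorem k8_exit (hC : K8HCrit) (hW : K8HWide) (x : K8Exp) (hx : x.Ok) : K8Exit x := by
  by_cases hk : 2 * x.k = 1
  · exact hC x hx hk
  · exact hW x hx hk

end Claimed.Agent.R252
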